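import Vale.Agent.P212.Index.Fred

/-!
P212 item 9: matrix entry criteria for approximability by finite rank operators.
-/

open scoped InnerProductSpace
open Filter Topology ComplexConjugate MeasureTheory

namespace VP212
namespace TorIdx

variable {H K : Type} [NormedAddCommGroup H] [InnerProductSpace ℂ H]
  [NormedAddCommGroup K] [InnerProductSpace ℂ K] {κ ν : Type}

/-- The norm of a combination of orthonormal vectors is monotone in the coefficients. -/
theorem norm_comb_le {e : κ → H} (he : Orthonormal ℂ e) (S : Finset κ) (f g : κ → ℂ) {C : ℝ}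
    (hC : 0 ≤ C) (h : ∀ k ∈ S, ‖f k‖ ≤ C * ‖g k‖) :
    ‖∑ k ∈ S, f k • e k‖ ≤ C * ‖∑ k ∈ S, g k • e k‖ := by
  have key : ∀ f : κ → ℂ, ‖∑ k ∈ S, f k • e k‖ ^ 2 = ∑ k ∈ S, ‖f k‖ ^ 2 := by
    intro f
    have h1 := he.inner_sum f f S
    rw [inner_self_eq_norm_sq_to_K] at h1
    simp only [RCLike.conj_mul] at h1
    exact RCLike.ofReal_injective (K := ℂ) (by push_cast; exact h1)
  refine le_of_pow_le_pow_left₀ two_ne_zero (by positivity) ?_
  rw [mul_pow, key, key, Finset.mul_sum]
  refine Finset.sum_le_sum fun k hk => ?_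
  rw [← mul_pow]
  exact pow_le_pow_left₀ (norm_nonneg _) (h k hk) 2

/-- The finite form of an operator weighted by `w`. -/
noncomputable def wform (e : κ → H) (h : ν → K) (w : κ → ν → ℂ) (Z : K →L[ℂ] H)
    (S : Finset κ) (S' : Finset ν) (x : κ → ℂ) (y : ν → ℂ) : ℂ :=
  ∑ k ∈ S, ∑ n ∈ S', conj (x k) * y n * (w k n * ⟪e k, Z (h n)⟫_ℂ)

theorem wform_prod (e : κ → H) (h : ν → K) (u : κ → ℂ) (v : ν → ℂ) (Z : K →L[ℂ] H)
    (S : Finset κ) (S' : Finset ν) (x : κ → ℂ) (y : ν → ℂ) :
    wform e h (fun k n => u k * v n) Z S S' x y =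
      ⟪∑ k ∈ S, (conj (u k) * x k) • e k, Z (∑ n ∈ S', (v n * y n) • h n)⟫_ℂ := by
  simp only [wform, map_sum, map_smul, sum_inner, inner_sum, inner_smul_left, inner_smul_right,
    map_mul, Complex.conj_conj]
  rw [Finset.sum_comm]
  refine Finset.sum_congr rfl fun n _ => ?_
  rw [Finset.mul_sum]
  refine Finset.sum_congr rfl fun k _ => ?_
  ring

theorem wform_prod_le {e : κ → H} {h : ν → K} (he : Orthonormal ℂ e) (hh : Orthonormal ℂ h)
    (u : κ → ℂ) (v : ν → ℂ) (Z : K →L[ℂ] H) (S : Finset κ) (S' : Finset ν) (x : κ → ℂ)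
    (y : ν → ℂ) {U V : ℝ} (hU : 0 ≤ U) (hV : 0 ≤ V) (hu : ∀ k ∈ S, ‖u k‖ ≤ U)
    (hv : ∀ n ∈ S', ‖v n‖ ≤ V) :
    ‖wform e h (fun k n => u k * v n) Z S S' x y‖ ≤
      U * V * ‖Z‖ * ‖∑ k ∈ S, x k • e k‖ * ‖∑ n ∈ S', y n • h n‖ := by
  rw [wform_prod]
  refine (norm_inner_le_norm _ _).trans ?_
  have h1 : ‖∑ k ∈ S, (conj (u k) * x k) • e k‖ ≤ U * ‖∑ k ∈ S, x k • e k‖ :=
    norm_comb_le he S _ _ hU fun k hk => by
      rw [norm_mul, Complex.norm_conj]
      exact mul_le_mul_of_nonneg_right (hu k hk) (norm_nonneg _)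
  have h2 : ‖∑ n ∈ S', (v n * y n) • h n‖ ≤ V * ‖∑ n ∈ S', y n • h n‖ :=
    norm_comb_le hh S' _ _ hV fun k hk => by
      rw [norm_mul]
      exact mul_le_mul_of_nonneg_right (hv k hk) (norm_nonneg _)
  calc ‖∑ k ∈ S, (conj (u k) * x k) • e k‖ * ‖Z (∑ n ∈ S', (v n * y n) • h n)‖
      ≤ (U * ‖∑ k ∈ S, x k • e k‖) * (‖Z‖ * (V * ‖∑ n ∈ S', y n • h n‖)) :=
        mul_le_mul h1 ((Z.le_opNorm _).trans (mul_le_mul_of_nonneg_left h2 (norm_nonneg _)))
          (norm_nonneg _) (by positivity)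
    _ = _ := by ring

/-- Weights whose finite forms are small away from a finite set. -/
def SchurSmall (e : κ → H) (h : ν → K) (w : κ → ν → ℂ) : Prop :=
  ∀ ε : ℝ, 0 < ε → ∃ (F : Finset κ) (G : Finset ν),
    ∀ (Z : K →L[ℂ] H) (S : Finset κ) (S' : Finset ν) (x : κ → ℂ) (y : ν → ℂ),
      (∀ k ∈ S, k ∉ F) → (∀ n ∈ S', n ∉ G) →
      ‖wform e h w Z S S' x y‖ ≤
        ε * ‖Z‖ * ‖∑ k ∈ S, x k • e k‖ * ‖∑ n ∈ S', y n • h n‖

theorem exists_finset_small {u : κ → ℂ} (hu : Tendsto u cofinite (𝓝 0)) {δ : ℝ} (hδ : 0 < δ) :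
    ∃ F : Finset κ, ∀ k, k ∉ F → ‖u k‖ ≤ δ := by
  have h := eventually_cofinite.1 (hu.eventually (Metric.closedBall_mem_nhds (0 : ℂ) hδ))
  exact ⟨h.toFinset, fun k hk => by simpa using hk⟩

theorem schurSmall_left {e : κ → H} {h : ν → K} (he : Orthonormal ℂ e) (hh : Orthonormal ℂ h)
    {u : κ → ℂ} {v : ν → ℂ} (hu : Tendsto u cofinite (𝓝 0)) {V : ℝ} (hv : ∀ n, ‖v n‖ ≤ V) :
    SchurSmall e h fun k n => u k * v n := by
  intro ε hε
  obtain ⟨F, hF⟩ := exists_finset_small hu (show 0 < ε / (|V| + 1) by positivity)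
  refine ⟨F, ∅, fun Z S S' x y hS _ => ?_⟩
  refine (wform_prod_le he hh u v Z S S' x y (U := ε / (|V| + 1)) (V := |V| + 1) (by positivity)
    (by positivity) (fun k hk => hF k (hS k hk))
    (fun n _ => (hv n).trans (by linarith [le_abs_self V]))).trans (le_of_eq ?_)
  field_simp

theorem schurSmall_right {e : κ → H} {h : ν → K} (he : Orthonormal ℂ e) (hh : Orthonormal ℂ h)
    {u : κ → ℂ} {v : ν → ℂ} {U : ℝ} (hu : ∀ k, ‖u k‖ ≤ U) (hv : Tendsto v cofinite (𝓝 0)) :
    SchurSmall e h fun k n => u k * v n := by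
  intro ε hε
  obtain ⟨G, hG⟩ := exists_finset_small hv (show 0 < ε / (|U| + 1) by positivity)
  refine ⟨∅, G, fun Z S S' x y _ hS => ?_⟩
  refine (wform_prod_le he hh u v Z S S' x y (U := |U| + 1) (V := ε / (|U| + 1)) (by positivity)
    (by positivity) (fun k _ => (hu k).trans (by linarith [le_abs_self U]))
    (fun n hn => hG n (hS n hn))).trans (le_of_eq ?_)
  field_simp

theorem integral_exp_inv {c : ℝ} (hc : 0 < c) :
    ∫ r in Set.Ioi (0 : ℝ), Real.exp (-c * r) = 1 / c := by
  rw [integral_exp_mul_Ioi (neg_lt_zero.2 hc)]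
  simp

/-- The weights `u v / (a + b)` are small when `b` tends to infinity. -/
theorem schurSmall_div {e : κ → H} {h : ν → K} (he : Orthonormal ℂ e) (hh : Orthonormal ℂ h)
    {u : κ → ℂ} {v : ν → ℂ} {a : κ → ℝ} {b : ν → ℝ} {U V : ℝ} (hu : ∀ k, ‖u k‖ ≤ U)
    (hv : ∀ n, ‖v n‖ ≤ V) (ha : ∀ k, 0 ≤ a k) (hb : ∀ n, 0 < b n)
    (hbi : Tendsto b cofinite atTop) :
    SchurSmall e h fun k n => u k * v n / ((a k : ℂ) + (b n : ℂ)) := by
  intro ε hε
  set U' := |U| + 1 with hU'
  set V' := |V| + 1 with hV'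
  set L : ℝ := U' * V' / ε with hLdef
  have hL : 0 < L := by positivity
  set G := (eventually_cofinite.1 (hbi.eventually_ge_atTop L)).toFinset with hGdef
  refine ⟨∅, G, fun Z S S' x y _ hS => ?_⟩
  set N := ‖Z‖ * ‖∑ k ∈ S, x k • e k‖ * ‖∑ n ∈ S', y n • h n‖ with hN
  set Φ : ℝ → ℂ := fun r => wform e h
    (fun k n => u k * (Real.exp (-r * a k) : ℂ) * (v n * (Real.exp (-r * b n) : ℂ)))
    Z S S' x y with hΦ
  have hbS : ∀ n ∈ S', L ≤ b n := fun n hn => by
    have := hS n hn
    simpa [hGdef, not_lt] using this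
  have hbound : ∀ r ∈ Set.Ioi (0 : ℝ), ‖Φ r‖ ≤ U' * V' * N * Real.exp (-L * r) := by
    intro r hr
    refine (wform_prod_le he hh _ _ Z S S' x y (U := U') (V := V' * Real.exp (-L * r))
      (by positivity) (by positivity) ?_ ?_).trans (le_of_eq (by rw [hN]; ring))
    · intro k _
      rw [norm_mul, Complex.norm_real, Real.norm_eq_abs, Real.abs_exp]
      calc ‖u k‖ * Real.exp (-r * a k) ≤ U' * 1 := by
            refine mul_le_mul ((hu k).trans (by linarith [le_abs_self U])) ?_
              (Real.exp_nonneg _) (by positivity)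
            exact Real.exp_le_one_iff.2 (by nlinarith [ha k, Set.mem_Ioi.1 hr])
        _ = U' := mul_one _
    · intro n hn
      rw [norm_mul, Complex.norm_real, Real.norm_eq_abs, Real.abs_exp]
      refine mul_le_mul ((hv n).trans (by linarith [le_abs_self V])) ?_ (Real.exp_nonneg _)
        (by positivity)
      exact Real.exp_le_exp.2 (by nlinarith [hbS n hn, Set.mem_Ioi.1 hr])
  set c : κ → ν → ℂ := fun k n => conj (x k) * y n * (u k * v n * ⟪e k, Z (h n)⟫_ℂ) with hc
  have hterm : ∀ k n, IntegrableOn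
      (fun r => (Real.exp (-(a k + b n) * r) : ℂ) * c k n) (Set.Ioi (0 : ℝ)) := by
    intro k n
    exact ((exp_neg_integrableOn_Ioi 0 (by linarith [ha k, hb n])).ofReal).mul_const _
  have hΦ' : Φ = fun r => ∑ k ∈ S, ∑ n ∈ S', (Real.exp (-(a k + b n) * r) : ℂ) * c k n := by
    funext r
    simp only [hΦ, wform, hc]
    refine Finset.sum_congr rfl fun k _ => Finset.sum_congr rfl fun n _ => ?_
    rw [show -(a k + b n) * r = -r * a k + -r * b n by ring, Real.exp_add]
    push_cast
    ring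
  have hint : ∫ r in Set.Ioi (0 : ℝ), Φ r =
      wform e h (fun k n => u k * v n / ((a k : ℂ) + (b n : ℂ))) Z S S' x y := by
    rw [hΦ', integral_finsetSum _ fun k _ => integrable_finsetSum _ fun n _ => hterm k n, wform]
    refine Finset.sum_congr rfl fun k _ => ?_
    rw [integral_finsetSum _ fun n _ => hterm k n]
    refine Finset.sum_congr rfl fun n _ => ?_
    rw [integral_mul_const, integral_complex_ofReal,
      integral_exp_inv (by linarith [ha k, hb n])]
    simp only [hc]
    push_cast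
    ring
  rw [← hint]
  refine (norm_integral_le_of_norm_le (g := fun r => U' * V' * N * Real.exp (-L * r)) ?_ ?_).trans
    (le_of_eq ?_)
  · exact ((exp_neg_integrableOn_Ioi 0 hL).const_mul (U' * V' * N))
  · filter_upwards [ae_restrict_mem measurableSet_Ioi] with r hr using hbound r hr
  · have hne : U' * V' ≠ 0 := by positivity
    rw [integral_const_mul, integral_exp_inv hL, hLdef, one_div_div, ← mul_div_assoc,
      div_eq_iff hne, hN]
    ring

/-- An operator whose entries are finitely many small weights times entries of bounded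
operators is approximable by operators of finite rank. -/
theorem appFin_of_entries (e : HilbertBasis κ ℂ H) (h : HilbertBasis ν ℂ K) (E : K →L[ℂ] H)
    {α : Type} [Fintype α] (w : α → κ → ν → ℂ) (Z : α → (K →L[ℂ] H))
    (hw : ∀ i, SchurSmall e h (w i))
    (hE : ∀ k n, ⟪e k, E (h n)⟫_ℂ = ∑ i, w i k n * ⟪e k, Z i (h n)⟫_ℂ) : AppFin E := by
  classical
  intro ε hε
  set δ : ℝ := ε / (∑ i, ‖Z i‖ + 1) with hδ
  have hδ0 : 0 < δ := by positivity
  choose F G hFG using fun i => hw i δ hδ0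
  set F' : Finset κ := Finset.univ.biUnion F with hF'
  set G' : Finset ν := Finset.univ.biUnion G with hG'
  set P : H →L[ℂ] H := ∑ k ∈ F', (innerSL ℂ (e k)).smulRight (e k) with hP
  set Q : K →L[ℂ] K := ∑ n ∈ G', (innerSL ℂ (h n)).smulRight (h n) with hQ
  set D : K →L[ℂ] H := (1 - P).comp (E.comp (1 - Q)) with hD
  refine ⟨E - D, ?_, ?_⟩
  · have hfd : FiniteDimensional ℂ (Submodule.span ℂ
        ((F'.image e : Finset H) ∪ (G'.image fun n => (1 - P) (E (h n))) : Set H)) :=
      FiniteDimensional.span_of_finite ℂ ((Finset.finite_toSet _).union (Finset.finite_toSet _))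
    refine Submodule.finiteDimensional_of_le (S₂ := Submodule.span ℂ
      ((F'.image e : Finset H) ∪ (G'.image fun n => (1 - P) (E (h n))) : Set H)) ?_
    rintro _ ⟨z, rfl⟩
    have hz : (E - D) z = P (E z) + (1 - P) (E (Q z)) := by
      simp only [hD, sub_apply, ContinuousLinearMap.comp_apply, map_sub,
        one_apply_eq_self]
      abel
    rw [ContinuousLinearMap.coe_coe, hz]
    refine add_mem ?_ ?_
    · simp only [hP, sum_apply, ContinuousLinearMap.smulRight_apply]
      refine Submodule.sum_mem _ fun k hk => Submodule.smul_mem _ _ (Submodule.subset_span ?_)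
      exact Or.inl (Finset.mem_coe.2 (Finset.mem_image_of_mem _ hk))
    · simp only [hQ, sum_apply, ContinuousLinearMap.smulRight_apply, map_sum, map_smul]
      refine Submodule.sum_mem _ fun n hn => Submodule.smul_mem _ _ (Submodule.subset_span ?_)
      exact Or.inr (Finset.mem_coe.2
        (Finset.mem_image_of_mem (fun n => (1 - P) (E (h n))) hn))
  · rw [sub_sub_cancel]
    have hPe : ∀ k z, ⟪e k, P z⟫_ℂ = if k ∈ F' then ⟪e k, z⟫_ℂ else 0 := by
      intro k z
      simp only [hP, sum_apply, ContinuousLinearMap.smulRight_apply, innerSL_apply_apply, inner_sum,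
        inner_smul_right, orthonormal_iff_ite.1 e.orthonormal, mul_ite, mul_one, mul_zero,
        Finset.sum_ite_eq]
    have hQh : ∀ n, Q (h n) = if n ∈ G' then h n else 0 := by
      intro n
      simp only [hQ, sum_apply, ContinuousLinearMap.smulRight_apply, innerSL_apply_apply,
        orthonormal_iff_ite.1 h.orthonormal, ite_smul, one_smul, zero_smul, Finset.sum_ite_eq']
    have hDe : ∀ k n, ⟪e k, D (h n)⟫_ℂ =
        if k ∈ F' then 0 else if n ∈ G' then 0 else ⟪e k, E (h n)⟫_ℂ := by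
      intro k n
      simp only [hD, ContinuousLinearMap.comp_apply, sub_apply,
        one_apply_eq_self, inner_sub_right, hPe, hQh]
      by_cases hk : k ∈ F' <;> by_cases hn : n ∈ G' <;> simp [hk, hn]
    have hfin : ∀ (S : Finset κ) (S' : Finset ν) (x : κ → ℂ) (y : ν → ℂ),
        ‖⟪∑ k ∈ S, x k • e k, D (∑ n ∈ S', y n • h n)⟫_ℂ‖ ≤
          ε * ‖∑ k ∈ S, x k • e k‖ * ‖∑ n ∈ S', y n • h n‖ := by
      intro S S' x y
      have heq : ⟪∑ k ∈ S, x k • e k, D (∑ n ∈ S', y n • h n)⟫_ℂ =
          ∑ i, wform e h (w i) (Z i) (S \ F') (S' \ G') x y := by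
        simp only [wform, map_sum, map_smul, sum_inner, inner_smul_left, inner_sum,
          inner_smul_right, hDe, Finset.mul_sum]
        rw [Finset.sum_comm (t := S), Finset.sum_comm (γ := α), ← Finset.filter_notMem_eq_sdiff,
          Finset.sum_filter]
        refine Finset.sum_congr rfl fun k _ => ?_
        by_cases hk : k ∈ F'
        · simp [hk]
        · rw [if_pos hk, Finset.sum_comm (γ := α), ← Finset.filter_notMem_eq_sdiff,
            Finset.sum_filter]
          refine Finset.sum_congr rfl fun n _ => ?_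
          by_cases hn : n ∈ G'
          · simp [hk, hn]
          · rw [if_pos hn, if_neg hk, if_neg hn, hE, Finset.mul_sum, Finset.mul_sum]
            refine Finset.sum_congr rfl fun i _ => ?_
            ring
      have hSle : ‖∑ k ∈ S \ F', x k • e k‖ ≤ ‖∑ k ∈ S, x k • e k‖ := by
        have := norm_comb_le e.orthonormal S (fun k => if k ∈ F' then 0 else x k) x zero_le_one
          (fun k _ => by split_ifs <;> simp)
        rw [one_mul] at this
        refine le_trans (le_of_eq ?_) this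
        rw [← Finset.filter_notMem_eq_sdiff, Finset.sum_filter]
        refine congrArg _ (Finset.sum_congr rfl fun k _ => ?_)
        by_cases hk : k ∈ F' <;> simp [hk]
      have hSle' : ‖∑ n ∈ S' \ G', y n • h n‖ ≤ ‖∑ n ∈ S', y n • h n‖ := by
        have := norm_comb_le h.orthonormal S' (fun n => if n ∈ G' then 0 else y n) y zero_le_one
          (fun k _ => by split_ifs <;> simp)
        rw [one_mul] at this
        refine le_trans (le_of_eq ?_) this
        rw [← Finset.filter_notMem_eq_sdiff, Finset.sum_filter]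
        refine congrArg _ (Finset.sum_congr rfl fun k _ => ?_)
        by_cases hk : k ∈ G' <;> simp [hk]
      rw [heq]
      refine (norm_sum_le _ _).trans ?_
      calc ∑ i, ‖wform e h (w i) (Z i) (S \ F') (S' \ G') x y‖
          ≤ ∑ i, δ * ‖Z i‖ * (‖∑ k ∈ S, x k • e k‖ * ‖∑ n ∈ S', y n • h n‖) := by
            refine Finset.sum_le_sum fun i _ => ?_
            refine (hFG i (Z i) _ _ x y (fun k hk hkF => ?_) (fun n hn hnG => ?_)).trans ?_
            · exact (Finset.mem_sdiff.1 hk).2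
                (Finset.mem_biUnion.2 ⟨i, Finset.mem_univ _, hkF⟩)
            · exact (Finset.mem_sdiff.1 hn).2
                (Finset.mem_biUnion.2 ⟨i, Finset.mem_univ _, hnG⟩)
            · rw [mul_assoc (δ * ‖Z i‖)]
              gcongr
        _ = δ * (∑ i, ‖Z i‖) * (‖∑ k ∈ S, x k • e k‖ * ‖∑ n ∈ S', y n • h n‖) := by
            rw [Finset.mul_sum, Finset.sum_mul]
        _ ≤ ε * (‖∑ k ∈ S, x k • e k‖ * ‖∑ n ∈ S', y n • h n‖) := by
            gcongr
            rw [hδ, div_mul_eq_mul_div, div_le_iff₀ (by positivity)]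
            nlinarith [hε.le, Finset.sum_nonneg (s := Finset.univ) fun i _ => norm_nonneg (Z i)]
        _ = _ := by ring
    refine ContinuousLinearMap.opNorm_le_bound _ hε.le fun z => ?_
    have hlim : ∀ x : H, ‖⟪x, D z⟫_ℂ‖ ≤ ε * ‖x‖ * ‖z‖ := by
      intro x
      have ht1 : Tendsto (fun p : Finset κ × Finset ν => ∑ k ∈ p.1, e.repr x k • e k)
          atTop (𝓝 x) := by
        rw [← prod_atTop_atTop_eq]
        exact (show Tendsto (fun S : Finset κ => ∑ k ∈ S, e.repr x k • e k) atTop (𝓝 x) from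
          e.hasSum_repr x).comp tendsto_fst
      have ht2 : Tendsto (fun p : Finset κ × Finset ν => ∑ n ∈ p.2, h.repr z n • h n)
          atTop (𝓝 z) := by
        rw [← prod_atTop_atTop_eq]
        exact (show Tendsto (fun S : Finset ν => ∑ n ∈ S, h.repr z n • h n) atTop (𝓝 z) from
          h.hasSum_repr z).comp tendsto_snd
      exact le_of_tendsto_of_tendsto'
        ((ht1.inner (𝕜 := ℂ) ((D.continuous.tendsto z).comp ht2)).norm)
        ((tendsto_const_nhds.mul ht1.norm).mul ht2.norm)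
        fun p => hfin p.1 p.2 (fun k => e.repr x k) (fun n => h.repr z n)
    have h1 := hlim (D z)
    rw [inner_self_eq_norm_sq_to_K, ← RCLike.ofReal_pow, RCLike.norm_ofReal,
      abs_of_nonneg (by positivity)] at h1
    rcases (norm_nonneg (D z)).eq_or_lt with h0 | h0
    · rw [← h0]; positivity
    · nlinarith

end TorIdx
end VP212
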