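import Vale.Agent.P212.Index.Theta
import Vale.Agent.P212.Index.Schur

/-!
P212 item 9: the phase intertwines a frame component and a shift modulo approximable operators.
-/

open scoped InnerProductSpace
open MeasureTheory Filter Topology ComplexConjugate

namespace VP212
namespace TorIdx

variable {m : ℤ × ℤ → ℂ} {W : TorusL2 →L[ℂ] TorusL2}

/-- The frequency. -/
noncomputable def zc (k : ℤ × ℤ) : ℂ := (k.1 : ℂ) + k.2 * Complex.I

/-- The regularised length of a frequency. -/
noncomputable def aW (k : ℤ × ℤ) : ℝ := Real.sqrt (1 + (2 * Real.pi * ‖zc k‖) ^ 2)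

theorem aW_pos (k : ℤ × ℤ) : 0 < aW k := Real.sqrt_pos.2 (by positivity)

theorem le_aW (k : ℤ × ℤ) : 2 * Real.pi * ‖zc k‖ ≤ aW k :=
  Real.le_sqrt_of_sq_le (by linarith)

theorem zc_le (k : ℤ × ℤ) : |(k.1 : ℝ)| ≤ ‖zc k‖ ∧ |(k.2 : ℝ)| ≤ ‖zc k‖ :=
  ⟨by simpa [zc] using Complex.abs_re_le_norm (zc k),
    by simpa [zc] using Complex.abs_im_le_norm (zc k)⟩

theorem tendsto_norm_zc : Tendsto (fun k => ‖zc k‖) cofinite atTop := by
  refine tendsto_atTop.2 fun L => eventually_cofinite.2 ?_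
  refine ((Finset.Icc (-⌈L⌉) ⌈L⌉) ×ˢ (Finset.Icc (-⌈L⌉) ⌈L⌉)).finite_toSet.subset fun k hk => ?_
  have hk' : ‖zc k‖ < L := not_le.1 hk
  have hL := Int.le_ceil L
  have h1 := abs_le.1 ((zc_le k).1.trans (hk'.le.trans hL))
  have h2 := abs_le.1 ((zc_le k).2.trans (hk'.le.trans hL))
  simp only [Finset.mem_coe, Finset.mem_product, Finset.mem_Icc]
  exact ⟨⟨by exact_mod_cast h1.1, by exact_mod_cast h1.2⟩,
    ⟨by exact_mod_cast h2.1, by exact_mod_cast h2.2⟩⟩

theorem tendsto_aW : Tendsto aW cofinite atTop :=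
  tendsto_atTop_mono le_aW (tendsto_norm_zc.const_mul_atTop (by positivity))

/-- The symbol of the exact phase, with the regularised length. -/
noncomputable def w0 (k : ℤ × ℤ) : ℂ := (2 * Real.pi : ℝ) * zc k / (aW k : ℂ)

theorem norm_w0_le (k : ℤ × ℤ) : ‖w0 k‖ ≤ 1 := by
  rw [w0, norm_div, norm_mul, Complex.norm_real, Complex.norm_real, Real.norm_eq_abs,
    Real.norm_eq_abs, abs_of_pos (aW_pos k), abs_of_pos (by positivity), div_le_one (aW_pos k)]
  exact le_aW k

theorem tendsto_phase_sub_w0 (hm : PhaseLike m) :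
    Tendsto (fun k => m k - w0 k) cofinite (𝓝 0) := by
  have h : Tendsto (fun k => zc k / (‖zc k‖ : ℂ) - w0 k) cofinite (𝓝 0) := by
    refine squeeze_zero_norm (fun k => ?_) tendsto_aW.inv_tendsto_atTop
    rcases eq_or_ne (zc k) 0 with h0 | h0
    · simp [h0, w0, (aW_pos k).le]
    · have hn : 0 < ‖zc k‖ := norm_pos_iff.2 h0
      have ha := aW_pos k
      have e : zc k / (‖zc k‖ : ℂ) - w0 k =
          zc k * ((1 / ‖zc k‖ - 2 * Real.pi / aW k : ℝ) : ℂ) := by
        rw [w0]; push_cast; ring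
      have hnonneg : 0 ≤ 1 / ‖zc k‖ - 2 * Real.pi / aW k := by
        rw [sub_nonneg, div_le_div_iff₀ ha hn]
        linarith [le_aW k]
      rw [e, norm_mul, Complex.norm_real, Real.norm_eq_abs, abs_of_nonneg hnonneg, Pi.inv_apply]
      have h2 : aW k ≤ 1 + 2 * Real.pi * ‖zc k‖ := by
        rw [aW, Real.sqrt_le_left (by positivity)]
        nlinarith [mul_pos Real.pi_pos hn]
      rw [mul_sub, mul_one_div, div_self hn.ne', mul_div_assoc', sub_le_iff_le_add, inv_eq_one_div,
        ← add_div, le_div_iff₀ ha, one_mul]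
      linarith
  simpa [zc] using hm.2.add h

theorem tendsto_phase_shift (hm : PhaseLike m) (l : ℤ × ℤ) :
    Tendsto (fun n => m (l + n) - m n) cofinite (𝓝 0) := by
  have hinj : Tendsto (fun n : ℤ × ℤ => l + n) cofinite cofinite :=
    (add_right_injective l).tendsto_cofinite
  have h : Tendsto (fun n => w0 (l + n) - w0 n) cofinite (𝓝 0) := by
    have h' : Tendsto (fun n => zc (l + n) / (‖zc (l + n)‖ : ℂ) - zc n / (‖zc n‖ : ℂ))
        cofinite (𝓝 0) := by
      refine squeeze_zero_norm' ?_ ((tendsto_norm_zc.inv_tendsto_atTop).const_mul (2 * ‖zc l‖)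
        |>.trans (le_of_eq (by rw [mul_zero])))
      filter_upwards [tendsto_norm_zc.eventually_gt_atTop 0,
        (tendsto_norm_zc.comp hinj).eventually_gt_atTop 0] with n hn hn'
      have hz : zc (l + n) = zc l + zc n := by
        simp only [zc, Prod.fst_add, Prod.snd_add]; push_cast; ring
      simp only [Function.comp_apply] at hn'
      rw [hz] at hn' ⊢
      set p := zc l + zc n with hp
      set q := zc n with hq
      have e : p / (‖p‖ : ℂ) - q / (‖q‖ : ℂ) =
          ((p - q) + p / (‖p‖ : ℂ) * ((‖q‖ - ‖p‖ : ℝ) : ℂ)) / (‖q‖ : ℂ) := by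
        have h1 : (‖p‖ : ℂ) ≠ 0 := Complex.ofReal_ne_zero.2 hn'.ne'
        have h2 : (‖q‖ : ℂ) ≠ 0 := Complex.ofReal_ne_zero.2 hn.ne'
        push_cast
        field_simp
        ring
      rw [e, norm_div, Complex.norm_real, Real.norm_eq_abs, abs_of_pos hn, Pi.inv_apply,
        ← div_eq_mul_inv]
      refine div_le_div_of_nonneg_right ((norm_add_le _ _).trans ?_) hn.le
      rw [norm_mul, norm_div, Complex.norm_real, Complex.norm_real, Real.norm_eq_abs,
        abs_of_pos hn', div_self hn'.ne', one_mul, Real.norm_eq_abs, two_mul]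
      have := abs_norm_sub_norm_le q p
      have e1 : p - q = zc l := by rw [hp]; ring
      rw [e1]
      rw [norm_sub_rev, e1] at this
      linarith
    have t := tendsto_phase_sub_w0 (m := fun k => zc k / (‖zc k‖ : ℂ))
      ⟨fun k => by
        rw [norm_div, Complex.norm_real, norm_norm]
        exact div_self_le_one _,
      by simp [zc]⟩
    have := (h'.add t).sub (t.comp hinj)
    simp only [add_zero, sub_zero] at this
    refine this.congr fun n => ?_
    simp only [Function.comp_apply]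
    ring
  have t := tendsto_phase_sub_w0 hm
  have := (h.sub t).add (t.comp hinj)
  simp only [add_zero, sub_zero] at this
  refine this.congr fun n => ?_
  simp only [Function.comp_apply]
  ring

theorem W_chr (hW : IsMultiplier m W) (k : ℤ × ℤ) : W (chr k) = m k • chr k :=
  hW k _ (isChar_chr k)

theorem inner_chr_W (hW : IsMultiplier m W) (k : ℤ × ℤ) (u : TorusL2) :
    ⟪chr k, W u⟫_ℂ = m k * ⟪chr k, u⟫_ℂ := by
  have h : (innerSL ℂ (chr k)).comp W = m k • innerSL ℂ (chr k) := by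
    refine ContinuousLinearMap.ext_on
      (Submodule.dense_iff_topologicalClosure_eq_top.2 span_chr_closure) ?_
    rintro _ ⟨l, rfl⟩
    simp only [ContinuousLinearMap.comp_apply, innerSL_apply_apply, smul_apply, W_chr hW,
      inner_smul_right, inner_chr_chr, smul_eq_mul]
    split_ifs with hkl
    · rw [hkl]
    · simp
  exact congrArg (fun F : TorusL2 →L[ℂ] ℂ => F u) h

theorem commute_continuous (hm : PhaseLike m) (hW : IsMultiplier m W) (f : C(Torus, ℂ)) :
    AppFin (W.comp (mulOp f) - (mulOp f).comp W) := by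
  set Φ : C(Torus, ℂ) → (TorusL2 →L[ℂ] TorusL2) :=
    fun f => W.comp (mulOp f) - (mulOp f).comp W with hΦ
  have hsub : ∀ f g : C(Torus, ℂ), Φ f - Φ g = Φ (f - g) := by
    intro f g
    have : mulOp (⇑(f - g)) = mulOp f - mulOp g := mulOp_sub (bm_cm f) (bm_cm g)
    simp only [hΦ, this, ContinuousLinearMap.comp_sub, ContinuousLinearMap.sub_comp]
    abel
  have hnorm : ∀ f : C(Torus, ℂ), ‖Φ f‖ ≤ 2 * ‖W‖ * ‖f‖ := by
    intro f
    have h := mulOp_norm_le (bm_cm f) (norm_nonneg f) f.norm_coe_le_norm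
    refine (norm_sub_le _ _).trans ?_
    calc ‖W.comp (mulOp f)‖ + ‖(mulOp f).comp W‖
        ≤ ‖W‖ * ‖mulOp f‖ + ‖mulOp f‖ * ‖W‖ :=
          add_le_add (ContinuousLinearMap.opNorm_comp_le _ _)
            (ContinuousLinearMap.opNorm_comp_le _ _)
      _ ≤ _ := by nlinarith [norm_nonneg W]
  set S : Submodule ℂ C(Torus, ℂ) :=
    { carrier := {f | AppFin (Φ f)}
      zero_mem' := by
        change AppFin (Φ 0)
        have h0 := hsub 0 0
        rw [sub_self, sub_self] at h0
        rw [← h0]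
        exact appFin_zero
      add_mem' := by
        intro f g hf hg
        change AppFin (Φ (f + g))
        have := hsub (f + g) g
        rw [add_sub_cancel_right, sub_eq_iff_eq_add] at this
        rw [this]
        exact hf.add hg
      smul_mem' := by
        intro c f hf
        change AppFin (Φ (c • f))
        have : mulOp (⇑(c • f)) = c • mulOp f := mulOp_smul (bm_cm f) c
        simp only [hΦ, this, ContinuousLinearMap.comp_smul, ContinuousLinearMap.smul_comp,
          ← smul_sub]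
        exact hf.smul c } with hS
  have hclosed : IsClosed (S : Set C(Torus, ℂ)) := by
    refine isClosed_of_closure_subset fun f hf => appFin_of_approx fun ε hε => ?_
    obtain ⟨g, hg, hfg⟩ := Metric.mem_closure_iff.1 hf (ε / (2 * ‖W‖ + 1)) (by positivity)
    refine ⟨Φ g, hg, ?_⟩
    change ‖Φ f - Φ g‖ ≤ ε
    rw [hsub]
    rw [dist_eq_norm] at hfg
    calc ‖Φ (f - g)‖ ≤ 2 * ‖W‖ * ‖f - g‖ := hnorm _
      _ ≤ (2 * ‖W‖ + 1) * (ε / (2 * ‖W‖ + 1)) :=
          mul_le_mul (by linarith) hfg.le (norm_nonneg _) (by positivity)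
      _ = ε := by field_simp
  have hspan : Submodule.span ℂ (Set.range charC) ≤ S := by
    refine Submodule.span_le.2 ?_
    rintro _ ⟨l, rfl⟩
    refine appFin_of_entries chrBasis chrBasis _
      (fun _ : Unit => fun (_ : ℤ × ℤ) n => (1 : ℂ) * (m (l + n) - m n))
      (fun _ => mulOp (charC l)) (fun _ => schurSmall_right chrBasis.orthonormal
        chrBasis.orthonormal (U := 1) (fun _ => by simp) (tendsto_phase_shift hm l)) fun j n => ?_
    simp only [hΦ, coe_chrBasis, sub_apply, ContinuousLinearMap.comp_apply, inner_sub_right,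
      W_chr hW, map_smul, inner_smul_right, mulOp_charC_chr, inner_chr_chr,
      Finset.univ_unique, Finset.sum_singleton]
    split_ifs with h
    · subst h; ring
    · ring
  have htop := Submodule.topologicalClosure_minimal _ hspan hclosed
  rw [span_charC_closure] at htop
  exact htop (Submodule.mem_top : f ∈ ⊤)

/-- A component of the model frame. -/
noncomputable def etaF (d : ℤ) (α : ℂ) (x : Torus) : ℂ :=
  (1 - (rep x.1 : ℂ)) * (1 + α * (rep x.1 : ℂ)) + (rep x.1 : ℂ) * fourier d x.2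

/-- The function attached to the covariant derivative of a model component. -/
noncomputable def dEta (d : ℤ) (κ : ℝ) (α : ℂ) (x : Torus) : ℂ :=
  (-1 + α - 2 * α * (rep x.1 : ℂ) +
    κ * (rep x.1 : ℂ) * ((1 - (rep x.1 : ℂ)) * (1 + α * (rep x.1 : ℂ)))) +
    (1 + κ * ((rep x.1 : ℂ) - 1) * (rep x.1 : ℂ)) * fourier d x.2

theorem bm_frame {a b : ℝ → ℂ} (ha : Continuous a) (hb : Continuous b) (d : ℤ) :
    BM fun x => a (rep x.1) + b (rep x.1) * fourier d x.2 := by
  obtain ⟨A, hA⟩ := (isCompact_Icc (a := (0 : ℝ)) (b := 1)).exists_bound_of_continuousOn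
    ha.continuousOn
  obtain ⟨B, hB⟩ := (isCompact_Icc (a := (0 : ℝ)) (b := 1)).exists_bound_of_continuousOn
    hb.continuousOn
  have hr : Measurable fun x : Torus => rep x.1 := measurable_rep.comp measurable_fst
  refine ⟨(ha.measurable.comp hr).add ((hb.measurable.comp hr).mul
    ((fourier d).continuous.measurable.comp measurable_snd)), A + B, fun x => ?_⟩
  refine (norm_add_le _ _).trans (add_le_add (hA _ (rep_mem_Icc _)) ?_)
  rw [norm_mul, fourier_apply, Circle.norm_coe, mul_one]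
  exact hB _ (rep_mem_Icc _)

theorem bm_etaF (d : ℤ) (α : ℂ) : BM (etaF d α) :=
  bm_frame (a := fun s : ℝ => (1 - (s : ℂ)) * (1 + α * (s : ℂ))) (b := fun s : ℝ => (s : ℂ))
    (by fun_prop) (by fun_prop) d

theorem bm_dEta (d : ℤ) (κ : ℝ) (α : ℂ) : BM (dEta d κ α) :=
  bm_frame (a := fun s : ℝ => -1 + α - 2 * α * (s : ℂ) +
      κ * (s : ℂ) * ((1 - (s : ℂ)) * (1 + α * (s : ℂ))))
    (b := fun s : ℝ => 1 + κ * ((s : ℂ) - 1) * (s : ℂ)) (by fun_prop) (by fun_prop) d

/-- The matrix entries of a function against the theta vectors. -/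
noncomputable def entry (d : ℤ) (η : Torus → ℂ) (k : ℤ × ℤ) (n : ℕ) : ℂ :=
  ⟪chr k, mulOp η (thVec d (phi n))⟫_ℂ

/-- Integration by parts in the variable of the fundamental interval. -/
theorem entry_rel {d : ℤ} (hd : d = 1 ∨ d = -1) (α : ℂ) (κ : ℝ) (k : ℤ × ℤ) (n n' : ℕ) (c : ℂ)
    (hder : ∀ x, HasDerivAt (phi n) (c * phi n' x + κ * x * phi n x) x) :
    (2 * Real.pi * Complex.I * k.1 - κ * (d * k.2 : ℤ)) * entry d (etaF d α) k n =
      entry d (dEta d κ α) k n + c * entry d (etaF d α) k n' := by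
  set A : ℝ → ℂ := fun s => (1 - (s : ℂ)) * (1 + α * (s : ℂ)) with hA
  set B : ℝ → ℂ := fun s => (s : ℂ) with hB
  set A' : ℝ → ℂ := fun s => -1 + α - 2 * α * (s : ℂ) +
    κ * (s : ℂ) * ((1 - (s : ℂ)) * (1 + α * (s : ℂ))) with hA'
  set B' : ℝ → ℂ := fun s => 1 + κ * ((s : ℂ) - 1) * (s : ℂ) with hB'
  have hP : ∀ j, entry d (etaF d α) k j = ∫ s in (0 : ℝ)..1, fourier (-k.1) (s : UnitAddCircle) *
      (A s * phi j (s + (d * k.2 : ℤ)) + B s * phi j (s + ((d * k.2 - 1 : ℤ) : ℝ))) := fun j =>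
    inner_chr_frame (a := A) (b := B) (by fun_prop) (by fun_prop) (dec_phi j) hd k (bm_etaF d α)
  have hD : entry d (dEta d κ α) k n = ∫ s in (0 : ℝ)..1, fourier (-k.1) (s : UnitAddCircle) *
      (A' s * phi n (s + (d * k.2 : ℤ)) + B' s * phi n (s + ((d * k.2 - 1 : ℤ) : ℝ))) :=
    inner_chr_frame (a := A') (b := B') (by fun_prop) (by fun_prop) (dec_phi n) hd k
      (bm_dEta d κ α)
  rw [hP, hP, hD]
  set L : ℤ := d * k.2 with hL
  set e : ℝ → ℂ := fun s => fourier (-k.1) (s : UnitAddCircle) with he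
  set G : ℝ → ℂ := fun s => e s * (A s * phi n (s + L) + B s * phi n (s + ((L - 1 : ℤ) : ℝ)))
    with hG
  set G1 : ℝ → ℂ := fun s => e s * (A' s * phi n (s + L) + B' s * phi n (s + ((L - 1 : ℤ) : ℝ)))
    with hG1
  set G2 : ℝ → ℂ := fun s => e s * (A s * phi n' (s + L) + B s * phi n' (s + ((L - 1 : ℤ) : ℝ)))
    with hG2
  have hf1 := continuous_phi n
  have hf2 := continuous_phi n'
  have cG : Continuous G := by simp only [hG, he, hA, hB]; fun_prop
  have cG1 : Continuous G1 := by simp only [hG1, he, hA', hB']; fun_prop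
  have cG2 : Continuous G2 := by simp only [hG2, he, hA, hB]; fun_prop
  have hdG : ∀ s : ℝ, HasDerivAt G
      (-(2 * Real.pi * Complex.I * k.1 - κ * (L : ℂ)) * G s + G1 s + c * G2 s) s := by
    intro s
    have de : HasDerivAt e (-(2 * Real.pi * Complex.I * k.1) * e s) s := by
      refine (hasDerivAt_fourier (T := (1 : ℝ)) (-k.1) s).congr_deriv ?_
      simp [he]
    have dA : HasDerivAt A (-1 + α - 2 * α * (s : ℂ)) s := by
      refine (((Complex.ofRealCLM.hasDerivAt (x := s)).const_sub 1).mul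
        (((Complex.ofRealCLM.hasDerivAt (x := s)).const_mul α).const_add 1)).congr_deriv ?_
      simp only [Complex.ofRealCLM_apply, Complex.ofReal_one]
      ring
    have dB : HasDerivAt B 1 s := by
      refine (Complex.ofRealCLM.hasDerivAt (x := s)).congr_deriv ?_
      simp
    refine (de.mul ((dA.mul ((hder _).comp_add_const s (L : ℝ))).add
      (dB.mul ((hder _).comp_add_const s ((L - 1 : ℤ) : ℝ))))).congr_deriv ?_
    simp only [hG, hG1, hG2, hA, hB, hA', hB', Pi.add_apply, Pi.mul_apply]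
    push_cast
    ring
  have hint := intervalIntegral.integral_eq_sub_of_hasDerivAt (a := (0 : ℝ)) (b := 1)
    (fun s _ => hdG s) (by
      refine Continuous.intervalIntegrable ?_ _ _
      exact ((continuous_const.mul cG).add cG1).add (continuous_const.mul cG2))
  have h01 : G 1 = G 0 := by
    simp only [hG, he, hA, hB]
    have : ((1 : ℝ) : UnitAddCircle) = ((0 : ℝ) : UnitAddCircle) := by
      rw [AddCircle.coe_period, QuotientAddGroup.mk_zero]
    rw [this]
    push_cast
    rw [show (1 : ℝ) + ((L : ℝ) - 1) = 0 + (L : ℝ) by ring]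
    ring
  set K : ℂ := -(2 * Real.pi * Complex.I * k.1 - κ * (L : ℂ)) with hK
  have i1 : IntervalIntegrable (fun y => K * G y + G1 y) volume 0 1 :=
    ((continuous_const.mul cG).add cG1).intervalIntegrable _ _
  have i2 : IntervalIntegrable (fun y => c * G2 y) volume 0 1 :=
    (continuous_const.mul cG2).intervalIntegrable _ _
  have i3 : IntervalIntegrable (fun y => K * G y) volume 0 1 :=
    (continuous_const.mul cG).intervalIntegrable _ _
  rw [h01, sub_self, intervalIntegral.integral_add i1 i2,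
    intervalIntegral.integral_add i3 (cG1.intervalIntegrable _ _),
    intervalIntegral.integral_const_mul, intervalIntegral.integral_const_mul, hK] at hint
  linear_combination -hint

theorem entry_rel_up {d : ℤ} (hd : d = 1 ∨ d = -1) (α : ℂ) (k : ℤ × ℤ) (n : ℕ) :
    (2 * Real.pi * Complex.I * k.1 - (2 * Real.pi) * (d * k.2 : ℤ)) * entry d (etaF d α) k n =
      entry d (dEta d (2 * Real.pi) α) k n
        + -(Real.sqrt (4 * Real.pi * (n + 1 : ℕ)) : ℂ) * entry d (etaF d α) k (n + 1) := by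
  simpa using entry_rel hd α (2 * Real.pi) k n (n + 1) _ (hasDerivAt_phi_up n)

theorem entry_rel_down {d : ℤ} (hd : d = 1 ∨ d = -1) (α : ℂ) (k : ℤ × ℤ) (n : ℕ) :
    (2 * Real.pi * Complex.I * k.1 + (2 * Real.pi) * (d * k.2 : ℤ)) * entry d (etaF d α) k n =
      entry d (dEta d (-(2 * Real.pi)) α) k n
        + (Real.sqrt (4 * Real.pi * (n : ℕ)) : ℂ) * entry d (etaF d α) k (n - 1) := by
  simpa [sub_neg_eq_add] using entry_rel hd α (-(2 * Real.pi)) k n (n - 1) _ (hasDerivAt_phi_down n)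

/-- The intertwining from the two relations between entries. -/
theorem appFin_intertwine (hm : PhaseLike m) (hW : IsMultiplier m W)
    (h : HilbertBasis ℕ ℂ TorusL2) (M M1 M2 S0 : TorusL2 →L[ℂ] TorusL2) (μ β : ℕ → ℝ) (c : ℂ)
    (hμ : ∀ n, μ n ^ 2 = β n) (hβ : Tendsto β cofinite atTop)
    (hc : Tendsto (fun n => -Complex.I * (μ n / Real.sqrt (1 + β n) : ℝ) - c) cofinite (𝓝 0))
    (h1 : ∀ k n, (2 * Real.pi * Complex.I * zc k) * ⟪chr k, M (h n)⟫_ℂ =
      ⟪chr k, M1 (h n)⟫_ℂ + (μ n : ℂ) * ⟪chr k, M (S0 (h n))⟫_ℂ)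
    (h2 : ∀ k n, (μ n : ℂ) * (-conj (2 * Real.pi * Complex.I * zc k) * ⟪chr k, M (S0 (h n))⟫_ℂ) =
      (μ n : ℂ) * ⟪chr k, M2 (S0 (h n))⟫_ℂ - (β n : ℂ) * ⟪chr k, M (h n)⟫_ℂ) :
    AppFin (W.comp M - M.comp (c • S0)) := by
  set b : ℕ → ℝ := fun n => Real.sqrt (1 + β n) with hb
  have hβ0 : ∀ n, 0 ≤ β n := fun n => by rw [← hμ]; positivity
  have hb0 : ∀ n, 0 < b n := fun n => Real.sqrt_pos.2 (by linarith [hβ0 n])
  have hbi : Tendsto b cofinite atTop :=
    Real.tendsto_sqrt_atTop.comp (tendsto_atTop_add_const_left _ 1 hβ)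
  have hμb : ∀ n, ‖((μ n / b n : ℝ) : ℂ)‖ ≤ 1 := fun n => by
    rw [Complex.norm_real, Real.norm_eq_abs, abs_div, abs_of_pos (hb0 n), div_le_one (hb0 n)]
    exact Real.le_sqrt_of_sq_le (by rw [sq_abs, hμ]; linarith)
  set r : ℤ × ℤ → ℝ := fun k => (2 * Real.pi * ‖zc k‖) ^ 2 / aW k ^ 2 with hr
  have hr01 : ∀ k, 0 ≤ r k ∧ r k ≤ 1 := fun k => by
    refine ⟨by positivity, ?_⟩
    rw [hr, div_le_one (pow_pos (aW_pos k) 2)]
    exact pow_le_pow_left₀ (by positivity) (le_aW k) 2
  refine appFin_of_entries chrBasis h _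
    (α := Fin 5)
    ![fun k _ => (m k - w0 k) * 1,
      fun k n => (-Complex.I * (1 - (r k : ℂ))) * (((b n)⁻¹ : ℝ) : ℂ),
      fun k n => (-Complex.I * (r k : ℂ)) * 1 / ((aW k : ℂ) + (b n : ℂ)),
      fun k n => w0 k * ((μ n / b n : ℝ) : ℂ) / ((aW k : ℂ) + (b n : ℂ)),
      fun _ n => (1 : ℂ) * (-Complex.I * ((μ n / b n : ℝ) : ℂ) - c)]
    ![M, M1, M1, M2.comp S0, M.comp S0] ?_ ?_
  · intro i
    fin_cases i
    · exact schurSmall_left chrBasis.orthonormal h.orthonormal (tendsto_phase_sub_w0 hm)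
        (V := 1) fun _ => by simp
    · refine schurSmall_right chrBasis.orthonormal h.orthonormal (U := 1) (fun k => ?_) ?_
      · rw [norm_mul, norm_neg, Complex.norm_I, one_mul, ← Complex.ofReal_one,
          ← Complex.ofReal_sub, Complex.norm_real, Real.norm_eq_abs, abs_le]
        constructor <;> linarith [(hr01 k).1, (hr01 k).2]
      · rw [← Complex.ofReal_zero]
        exact (Complex.continuous_ofReal.tendsto 0).comp hbi.inv_tendsto_atTop
    · refine schurSmall_div chrBasis.orthonormal h.orthonormal (U := 1) (V := 1) (fun k => ?_)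
        (fun _ => by simp) (fun k => (aW_pos k).le) hb0 hbi
      rw [norm_mul, norm_neg, Complex.norm_I, one_mul, Complex.norm_real, Real.norm_eq_abs, abs_le]
      constructor <;> linarith [(hr01 k).1, (hr01 k).2]
    · exact schurSmall_div chrBasis.orthonormal h.orthonormal (U := 1) (V := 1) norm_w0_le hμb
        (fun k => (aW_pos k).le) hb0 hbi
    · exact schurSmall_right chrBasis.orthonormal h.orthonormal (U := 1) (fun _ => by simp) hc
  · intro k n
    have e1 := h1 k n
    have e2 := h2 k n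
    simp only [map_mul, map_ofNat, Complex.conj_ofReal, Complex.conj_I] at e2
    simp only [coe_chrBasis, sub_apply, ContinuousLinearMap.comp_apply, smul_apply, map_smul,
      inner_sub_right, inner_smul_right, inner_chr_W hW, Fin.sum_univ_five, Matrix.cons_val_zero,
      Matrix.cons_val_one, Matrix.cons_val, one_mul, mul_one, hr]
    set P := ⟪chr k, M (h n)⟫_ℂ
    set Q := ⟪chr k, M1 (h n)⟫_ℂ
    set Pσ := ⟪chr k, M (S0 (h n))⟫_ℂ
    set Qσ := ⟪chr k, M2 (S0 (h n))⟫_ℂ
    have ha2 : ((aW k : ℂ)) ^ 2 = 1 + (2 * Real.pi) ^ 2 * (zc k * conj (zc k)) := by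
      rw [Complex.mul_conj']
      exact_mod_cast show aW k ^ 2 = 1 + (2 * Real.pi) ^ 2 * ‖zc k‖ ^ 2 by
        rw [aW, Real.sq_sqrt (by positivity)]; ring
    have hb2 : ((b n : ℂ)) ^ 2 = 1 + (β n : ℂ) := by
      exact_mod_cast show b n ^ 2 = 1 + β n by
        rw [hb]; exact Real.sq_sqrt (by linarith [hβ0 n])
    have han : (aW k : ℂ) ≠ 0 := Complex.ofReal_ne_zero.2 (aW_pos k).ne'
    have hbn : (b n : ℂ) ≠ 0 := Complex.ofReal_ne_zero.2 (hb0 n).ne'
    have habn : (aW k : ℂ) + (b n : ℂ) ≠ 0 := by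
      rw [← Complex.ofReal_add]
      exact Complex.ofReal_ne_zero.2 (add_pos (aW_pos k) (hb0 n)).ne'
    have hz2 : ((‖zc k‖ : ℂ)) ^ 2 = zc k * conj (zc k) := (Complex.mul_conj' _).symm
    have hII : Complex.I * Complex.I = -1 := Complex.I_mul_I
    have hQ : Q = 2 * Real.pi * Complex.I * zc k * P - (μ n : ℂ) * Pσ := by linear_combination -e1
    have hQσ : (μ n : ℂ) * Qσ =
        (β n : ℂ) * P + 2 * Real.pi * Complex.I * conj (zc k) * ((μ n : ℂ) * Pσ) := by
      linear_combination -e2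
    simp only [w0]
    push_cast
    field_simp
    rw [mul_assoc _ (μ n : ℂ) Qσ, hQσ, hQ]
    rw [hz2]
    linear_combination (2 * (Real.pi : ℂ) * zc k * P *
        (((aW k : ℂ) ^ 2 - 2 ^ 2 * (Real.pi : ℂ) ^ 2 * (zc k * conj (zc k))) *
            ((aW k : ℂ) + (b n : ℂ)) +
          2 ^ 2 * (Real.pi : ℂ) ^ 2 * (zc k * conj (zc k)) * (b n : ℂ))) * hII +
      2 * (Real.pi : ℂ) * zc k * P * (aW k : ℂ) * hb2 -
      2 * (Real.pi : ℂ) * zc k * P * (aW k : ℂ) * ha2

end TorIdx
end VP212
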