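import Vale.Agent.P212.Index.Phase

/-!
P212 item 9: an arbitrary frame of a line bundle of degree `±1`.
-/

open scoped InnerProductSpace
open MeasureTheory Filter Topology ComplexConjugate

namespace VP212
namespace TorIdx

variable {ι : Type} [Fintype ι] {d : ℤ} {ξ : ℝ → ℝ → ι → ℂ}

/-- A frame as functions on the torus, through the fundamental domain. -/
noncomputable def xiT (ξ : ℝ → ℝ → ι → ℂ) (i : ι) (x : Torus) : ℂ := ξ (rep x.1) (rep x.2) i

theorem norm_xi_le (hξ : IsLineFrame d ξ) (s t : ℝ) (i : ι) : ‖ξ s t i‖ ≤ 1 := by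
  have h := Finset.single_le_sum (f := fun i => ‖ξ s t i‖ ^ 2) (fun j _ => by positivity)
    (Finset.mem_univ i)
  rw [hξ.2.1] at h
  nlinarith [norm_nonneg (ξ s t i)]

theorem bm_xiT (hξ : IsLineFrame d ξ) (i : ι) : BM (xiT ξ i) :=
  ⟨(hξ.1 i).measurable.comp
    ((measurable_rep.comp measurable_fst).prodMk (measurable_rep.comp measurable_snd)),
    1, fun _ => norm_xi_le hξ _ _ i⟩

theorem sum_conj_xiT (hξ : IsLineFrame d ξ) (x : Torus) :
    ∑ i, conj (xiT ξ i x) * xiT ξ i x = 1 := by
  have h : ∑ i, conj (xiT ξ i x) * xiT ξ i x = ((∑ i, ‖xiT ξ i x‖ ^ 2 : ℝ) : ℂ) := by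
    push_cast
    exact Finset.sum_congr rfl fun i _ => Complex.conj_mul' _
  rw [h]
  simp [xiT, hξ.2.1]

/-- The model component, in coordinates on the plane. -/
noncomputable def etaR (d : ℤ) (α : ℂ) (t s : ℝ) : ℂ :=
  (1 - (s : ℂ)) * (1 + α * (s : ℂ)) + (s : ℂ) * fourier d (t : UnitAddCircle)

theorem etaR_ne_zero (d : ℤ) (t s : ℝ) (hs : s ∈ Set.Icc (0 : ℝ) 1) :
    0 < ‖etaR d 0 t s‖ ^ 2 + ‖etaR d Complex.I t s‖ ^ 2 := by
  by_contra hcon
  have h0 : etaR d 0 t s = 0 := by
    rw [← norm_eq_zero]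
    nlinarith [sq_nonneg ‖etaR d Complex.I t s‖, norm_nonneg (etaR d 0 t s)]
  have h1 : etaR d Complex.I t s = 0 := by
    rw [← norm_eq_zero]
    nlinarith [sq_nonneg ‖etaR d 0 t s‖, norm_nonneg (etaR d Complex.I t s)]
  have h2 : ((s * (1 - s) : ℝ) : ℂ) * Complex.I = 0 := by
    simp only [etaR] at h0 h1
    push_cast
    linear_combination h1 - h0
  have h3 : s * (1 - s) = 0 := by
    rcases mul_eq_zero.1 h2 with h | h
    · exact_mod_cast h
    · exact absurd h Complex.I_ne_zero
  simp only [etaR] at h0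
  rcases mul_eq_zero.1 h3 with h | h
  · subst h; simp at h0
  · obtain rfl : s = 1 := by linarith
    simp [fourier_apply] at h0

/-- A frame component is a combination of the model components with continuous coefficients. -/
theorem exists_coeff (hξ : IsLineFrame d ξ) (i : ι) :
    ∃ c0 c1 : C(Torus, ℂ), ∀ x, xiT ξ i x = c0 x * etaF d 0 x + c1 x * etaF d Complex.I x := by
  set D : ℝ → ℝ → ℂ := fun t s =>
    etaR d 0 t s * conj (etaR d 0 t s) + etaR d Complex.I t s * conj (etaR d Complex.I t s) with hD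
  have hDne : ∀ t s, s ∈ Set.Icc (0 : ℝ) 1 → D t s ≠ 0 := by
    intro t s hs h
    simp only [hD, Complex.mul_conj'] at h
    have := etaR_ne_zero d t s hs
    exact this.ne' (by exact_mod_cast h)
  have hq : IsOpenQuotientMap
      (Prod.map ((↑) : ℝ → UnitAddCircle) ((↑) : ℝ → UnitAddCircle)) :=
    QuotientAddGroup.isOpenQuotientMap_mk.prodMap QuotientAddGroup.isOpenQuotientMap_mk
  have mk : ∀ α : ℂ, ∃ c : C(Torus, ℂ), ∀ x : Torus, c x =
      ξ (rep x.1) (rep x.2) i * conj (etaR d α (rep x.2) (rep x.1)) /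
        D (rep x.2) (rep x.1) := by
    intro α
    set f : ℝ → ℝ → ℂ := fun t s => ξ s t i * conj (etaR d α t s) / D t s with hf
    have hfc : ContinuousOn (Function.uncurry f) (Set.univ ×ˢ Set.Icc (0 : ℝ) 1) := by
      have hη : ∀ β : ℂ, Continuous fun q : ℝ × ℝ => etaR d β q.1 q.2 := fun β => by
        simp only [etaR]; fun_prop
      refine ContinuousOn.div
        (((hξ.1 i).comp continuous_swap).mul
          (Complex.continuous_conj.comp (hη α))).continuousOn
        (((hη 0).mul (Complex.continuous_conj.comp (hη 0))).add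
          ((hη Complex.I).mul (Complex.continuous_conj.comp (hη Complex.I)))).continuousOn
        fun q hq => hDne q.1 q.2 hq.2
    have hends : ∀ t, f t 0 = f t 1 := by
      intro t
      have hx : ξ 1 t i = fourier d (t : UnitAddCircle) * ξ 0 t i := by
        have := hξ.2.2.2 0 t i
        rw [zero_add] at this
        rw [this, fourier_coe_apply]
        simp
      have he : fourier d (t : UnitAddCircle) * conj (fourier d (t : UnitAddCircle)) = 1 := by
        rw [Complex.mul_conj', fourier_apply, Circle.norm_coe]; simp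
      have e0 : ∀ β : ℂ, etaR d β t 0 = 1 := fun β => by simp [etaR]
      have e1 : ∀ β : ℂ, etaR d β t 1 = fourier d (t : UnitAddCircle) := fun β => by simp [etaR]
      simp only [hf, hD, e0, e1, hx, map_one, mul_one, he]
      rw [show fourier d (t : UnitAddCircle) * ξ 0 t i * conj (fourier d (t : UnitAddCircle)) =
        ξ 0 t i by linear_combination (ξ 0 t i) * he]
    set F : ℝ × ℝ → ℂ := fun p => f p.2 (Int.fract p.1) with hF
    have hFc : Continuous F :=
      (hfc.comp_fract' hends).comp (continuous_snd.prodMk continuous_fst)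
    have hper : ∀ (t : ℝ) (n : ℤ) (s : ℝ), ξ s (t + n) i = ξ s t i := fun t n s => by
      have hp : Function.Periodic (fun t => ξ s t i) 1 := fun t => hξ.2.2.1 s t i
      simpa using hp.int_mul n t
    set cf : Torus → ℂ := fun x => f (rep x.2) (rep x.1) with hcf
    have hcomp : cf ∘ Prod.map ((↑) : ℝ → UnitAddCircle) ((↑) : ℝ → UnitAddCircle) = F := by
      funext p
      simp only [hcf, hF, Function.comp_apply, Prod.map_fst, Prod.map_snd, rep_coe, hf, hD, etaR]
      have hcoe : ((Int.fract p.2 : ℝ) : UnitAddCircle) = (p.2 : UnitAddCircle) := by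
        rw [← rep_coe, coe_rep]
      have hxi : ξ (Int.fract p.1) (Int.fract p.2) i = ξ (Int.fract p.1) p.2 i := by
        conv_rhs => rw [← Int.fract_add_floor p.2]
        rw [hper]
      simp only [hcoe, hxi]
    have hcc : Continuous cf := by
      rw [hq.isQuotientMap.continuous_iff, hcomp]; exact hFc
    exact ⟨⟨cf, hcc⟩, fun x => rfl⟩
  obtain ⟨c0, h0⟩ := mk 0
  obtain ⟨c1, h1⟩ := mk Complex.I
  refine ⟨c0, c1, fun x => ?_⟩
  have he : ∀ α : ℂ, etaF d α x = etaR d α (rep x.2) (rep x.1) := fun α => by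
    simp [etaF, etaR, coe_rep]
  rw [h0, h1, he, he, xiT]
  have hne := hDne (rep x.2) (rep x.1) (rep_mem_Icc _)
  rw [div_mul_eq_mul_div, div_mul_eq_mul_div, ← add_div, eq_div_iff hne]
  simp only [hD]
  ring

variable {m : ℤ × ℤ → ℂ} {W : TorusL2 →L[ℂ] TorusL2}

/-- The phase compressed to a line bundle of degree `±1` has index `±1`. -/
theorem idxIs_compressed (hm : PhaseLike m) (hW : IsMultiplier m W) (hd : d = 1 ∨ d = -1)
    (hξ : IsLineFrame d ξ) :
    ∃ k : ℤ, (k = 1 ∨ k = -1) ∧ IdxIs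
      ((∑ i, (mulOp fun x => conj (xiT ξ i x)).comp (W.comp (mulOp (xiT ξ i))) :
        TorusL2 →L[ℂ] TorusL2) : TorusL2 →ₗ[ℂ] TorusL2) k := by
  obtain ⟨S, A, k, hk, hS, hSA, hAS, hη⟩ := exists_model hm hW hd
  refine ⟨k, hk, idxIs_perturb hS ?_ hSA hAS⟩
  have hone : ∑ i, (mulOp fun x => conj (xiT ξ i x)).comp (mulOp (xiT ξ i)) =
      ContinuousLinearMap.id ℂ TorusL2 := by
    simp only [mulOp_comp (bm_xiT hξ _).conj (bm_xiT hξ _)]
    rw [← mulOp_sum _ fun i _ => (bm_xiT hξ i).conj.mul (bm_xiT hξ i), ← mulOp_one]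
    exact congrArg mulOp (funext (sum_conj_xiT hξ))
  have hid : S = ∑ i, ((mulOp fun x => conj (xiT ξ i x)).comp (mulOp (xiT ξ i))).comp S := by
    rw [← ContinuousLinearMap.finsetSum_comp, hone, ContinuousLinearMap.id_comp]
  have hdiff : (∑ i, (mulOp fun x => conj (xiT ξ i x)).comp (W.comp (mulOp (xiT ξ i)))) - S =
      ∑ i, (mulOp fun x => conj (xiT ξ i x)).comp
        (W.comp (mulOp (xiT ξ i)) - (mulOp (xiT ξ i)).comp S) := by
    conv_lhs => rw [hid, ← Finset.sum_sub_distrib]
    refine Finset.sum_congr rfl fun i _ => ?_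
    rw [ContinuousLinearMap.comp_sub, ContinuousLinearMap.comp_assoc]
  rw [hdiff]
  refine AppFin.sum _ fun i _ => AppFin.comp_left ?_ _
  obtain ⟨c0, c1, hc⟩ := exists_coeff hξ i
  have hx : xiT ξ i = fun x => c0 x * etaF d 0 x + c1 x * etaF d Complex.I x := funext hc
  rw [hx, mulOp_add ((bm_cm c0).mul (bm_etaF d 0)) ((bm_cm c1).mul (bm_etaF d _)),
    ← mulOp_comp (bm_cm c0) (bm_etaF d 0), ← mulOp_comp (bm_cm c1) (bm_etaF d Complex.I)]
  have piece : ∀ (c : C(Torus, ℂ)) (α : ℂ), AppFin (W.comp ((mulOp c).comp (mulOp (etaF d α))) -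
      ((mulOp c).comp (mulOp (etaF d α))).comp S) := by
    intro c α
    have := ((commute_continuous hm hW c).comp_right (mulOp (etaF d α))).add
      ((hη α).comp_left (mulOp c))
    convert this using 1
    simp only [ContinuousLinearMap.sub_comp, ContinuousLinearMap.comp_sub,
      ContinuousLinearMap.comp_assoc]
    abel
  have := (piece c0 0).add (piece c1 Complex.I)
  convert this using 1
  simp only [ContinuousLinearMap.comp_add, ContinuousLinearMap.add_comp]
  abel

end TorIdx
end VP212
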