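import Vale.Agent.P212.Base.Torus

/-!
P212 item 9: operators approximable by finite rank ones and the index.
-/

open scoped InnerProductSpace
open Filter Topology

namespace VP212
namespace TorIdx

section AppFin

variable {H H' H'' : Type} [NormedAddCommGroup H] [NormedSpace ℂ H]
  [NormedAddCommGroup H'] [NormedSpace ℂ H'] [NormedAddCommGroup H''] [NormedSpace ℂ H'']

/-- `E` is a norm limit of operators of finite rank. -/
def AppFin (E : H →L[ℂ] H') : Prop :=
  ∀ ε : ℝ, 0 < ε → ∃ F : H →L[ℂ] H',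
    FiniteDimensional ℂ (LinearMap.range (F : H →ₗ[ℂ] H')) ∧ ‖E - F‖ ≤ ε

theorem appFin_of_finiteRange {E : H →L[ℂ] H'}
    (h : FiniteDimensional ℂ (LinearMap.range (E : H →ₗ[ℂ] H'))) : AppFin E :=
  fun ε hε => ⟨E, h, by simpa using hε.le⟩

theorem appFin_zero : AppFin (0 : H →L[ℂ] H') := by
  refine appFin_of_finiteRange ?_
  rw [ContinuousLinearMap.toLinearMap_zero, LinearMap.range_zero]
  infer_instance

theorem AppFin.add {E E' : H →L[ℂ] H'} (h : AppFin E) (h' : AppFin E') : AppFin (E + E') := by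
  intro ε hε
  obtain ⟨F, hF, hn⟩ := h (ε / 2) (half_pos hε)
  obtain ⟨F', hF', hn'⟩ := h' (ε / 2) (half_pos hε)
  refine ⟨F + F', ?_, ?_⟩
  · exact Submodule.finiteDimensional_of_le (S₂ := LinearMap.range (F : H →ₗ[ℂ] H') ⊔
      LinearMap.range (F' : H →ₗ[ℂ] H')) (by
        rintro _ ⟨x, rfl⟩
        exact Submodule.add_mem_sup ⟨x, rfl⟩ ⟨x, rfl⟩)
  · calc ‖E + E' - (F + F')‖ = ‖(E - F) + (E' - F')‖ := by congr 1; abel
      _ ≤ ‖E - F‖ + ‖E' - F'‖ := norm_add_le _ _
      _ ≤ ε := by linarith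

theorem AppFin.comp_left {E : H →L[ℂ] H'} (h : AppFin E) (A : H' →L[ℂ] H'') :
    AppFin (A.comp E) := by
  intro ε hε
  obtain ⟨F, hF, hn⟩ := h (ε / (‖A‖ + 1)) (by positivity)
  refine ⟨A.comp F, ?_, ?_⟩
  · rw [ContinuousLinearMap.toLinearMap_comp, LinearMap.range_comp]
    infer_instance
  · rw [← ContinuousLinearMap.comp_sub]
    calc ‖A.comp (E - F)‖ ≤ ‖A‖ * ‖E - F‖ := A.opNorm_comp_le _
      _ ≤ (‖A‖ + 1) * (ε / (‖A‖ + 1)) := by
          exact mul_le_mul (by linarith) hn (norm_nonneg _) (by positivity)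
      _ = ε := by field_simp

theorem AppFin.comp_right {E : H' →L[ℂ] H''} (h : AppFin E) (A : H →L[ℂ] H') :
    AppFin (E.comp A) := by
  intro ε hε
  obtain ⟨F, hF, hn⟩ := h (ε / (‖A‖ + 1)) (by positivity)
  refine ⟨F.comp A, ?_, ?_⟩
  · exact Submodule.finiteDimensional_of_le (S₂ := LinearMap.range (F : H' →ₗ[ℂ] H'')) (by
      rintro _ ⟨x, rfl⟩
      exact ⟨A x, rfl⟩)
  · rw [← ContinuousLinearMap.sub_comp]
    calc ‖(E - F).comp A‖ ≤ ‖E - F‖ * ‖A‖ := (E - F).opNorm_comp_le _
      _ ≤ (ε / (‖A‖ + 1)) * (‖A‖ + 1) :=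
          mul_le_mul hn (by linarith) (norm_nonneg _) (by positivity)
      _ = ε := by field_simp

theorem AppFin.smul {E : H →L[ℂ] H'} (h : AppFin E) (c : ℂ) : AppFin (c • E) := by
  have := h.comp_left (c • ContinuousLinearMap.id ℂ H')
  simpa using this

theorem AppFin.sum {α : Type*} (s : Finset α) {E : α → (H →L[ℂ] H')}
    (h : ∀ a ∈ s, AppFin (E a)) : AppFin (∑ a ∈ s, E a) := by
  classical
  induction s using Finset.induction with
  | empty => simpa using appFin_zero
  | insert a s ha ih =>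
      rw [Finset.sum_insert ha]
      exact (h a (Finset.mem_insert_self a s)).add
        (ih fun b hb => h b (Finset.mem_insert_of_mem hb))

theorem appFin_of_approx {E : H →L[ℂ] H'}
    (h : ∀ ε : ℝ, 0 < ε → ∃ E', AppFin E' ∧ ‖E - E'‖ ≤ ε) : AppFin E := by
  intro ε hε
  obtain ⟨E', hE', hn⟩ := h (ε / 2) (half_pos hε)
  obtain ⟨F, hF, hn'⟩ := hE' (ε / 2) (half_pos hε)
  refine ⟨F, hF, ?_⟩
  calc ‖E - F‖ = ‖(E - E') + (E' - F)‖ := by congr 1; abel
    _ ≤ ‖E - E'‖ + ‖E' - F‖ := norm_add_le _ _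
    _ ≤ ε := by linarith

end AppFin

section Index

variable {M N P : Type} [AddCommGroup M] [Module ℂ M] [AddCommGroup N] [Module ℂ N]
  [AddCommGroup P] [Module ℂ P]

/-- `f` has finite dimensional kernel and cokernel and index `k`. -/
def IdxIs (f : M →ₗ[ℂ] N) (k : ℤ) : Prop :=
  FiniteDimensional ℂ (LinearMap.ker f) ∧ FiniteDimensional ℂ (N ⧸ LinearMap.range f) ∧
    f.index = k

theorem idxIs_equiv (e : M ≃ₗ[ℂ] N) : IdxIs (e : M →ₗ[ℂ] N) 0 := by
  refine ⟨?_, ?_, e.index_eq_zero⟩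
  · rw [LinearEquiv.ker]; infer_instance
  · rw [LinearEquiv.range]; infer_instance

theorem IdxIs.comp {f : M →ₗ[ℂ] N} {g : N →ₗ[ℂ] P} {j k : ℤ} (hf : IdxIs f j) (hg : IdxIs g k) :
    IdxIs (g.comp f) (k + j) := by
  obtain ⟨_, _, hfi⟩ := hf
  obtain ⟨_, _, hgi⟩ := hg
  refine ⟨?_, ?_, by rw [LinearMap.index_comp, hfi, hgi]⟩
  · rw [LinearMap.ker_comp]; infer_instance
  · rw [LinearMap.range_comp]; infer_instance

/-- A map which is inverted from both sides up to maps of index zero. -/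
theorem idxIs_of_quasi {T : M →ₗ[ℂ] N} {R : N →ₗ[ℂ] M} (h1 : IdxIs (T.comp R) 0)
    (h2 : IdxIs (R.comp T) 0) : ∃ k, IdxIs T k ∧ IdxIs R (-k) := by
  obtain ⟨k1, c1, i1⟩ := h1
  obtain ⟨k2, c2, i2⟩ := h2
  have hkT : FiniteDimensional ℂ (LinearMap.ker T) :=
    Submodule.finiteDimensional_of_le (LinearMap.ker_le_ker_comp T R)
  have hkR : FiniteDimensional ℂ (LinearMap.ker R) :=
    Submodule.finiteDimensional_of_le (LinearMap.ker_le_ker_comp R T)
  have hcT : FiniteDimensional ℂ (N ⧸ LinearMap.range T) :=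
    Module.Finite.of_surjective
      (Submodule.factor (LinearMap.range_comp_le_range R T)) (Submodule.factor_surjective _)
  have hcR : FiniteDimensional ℂ (M ⧸ LinearMap.range R) :=
    Module.Finite.of_surjective
      (Submodule.factor (LinearMap.range_comp_le_range T R)) (Submodule.factor_surjective _)
  refine ⟨T.index, ⟨hkT, hcT, rfl⟩, hkR, hcR, ?_⟩
  rw [LinearMap.index_comp] at i1
  omega

/-- The identity plus a map of finite rank has index zero. -/
theorem idxIs_id_add_finrank (F : M →ₗ[ℂ] M) [FiniteDimensional ℂ (LinearMap.range F)] :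
    IdxIs (LinearMap.id + F) 0 := by
  set f : M →ₗ[ℂ] M := LinearMap.id + F with hf
  set V : Submodule ℂ M := LinearMap.range F with hV
  have hfV : ∀ x ∈ V, f x ∈ V := fun x hx => V.add_mem hx ⟨x, rfl⟩
  have hback : ∀ x, f x ∈ V → x ∈ V := fun x hx => by
    have h : f x - F x ∈ V := V.sub_mem hx ⟨x, rfl⟩
    simpa [hf] using h
  set g : V →ₗ[ℂ] V := f.restrict hfV with hg
  have hker : LinearMap.ker f ≤ V := fun x hx => hback x (by simp [LinearMap.mem_ker.1 hx])
  let eker : LinearMap.ker g ≃ₗ[ℂ] LinearMap.ker f :=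
    { toFun := fun x => ⟨(x.1 : M), congrArg Subtype.val x.2⟩
      invFun := fun x => ⟨⟨x.1, hker x.2⟩, Subtype.ext x.2⟩
      map_add' := fun _ _ => rfl
      map_smul' := fun _ _ => rfl
      left_inv := fun _ => rfl
      right_inv := fun _ => rfl }
  let q : V →ₗ[ℂ] M ⧸ LinearMap.range f := (LinearMap.range f).mkQ.comp V.subtype
  have hq : Function.Surjective q := by
    intro y
    obtain ⟨x, rfl⟩ := Submodule.mkQ_surjective _ y
    refine ⟨⟨-F x, V.neg_mem ⟨x, rfl⟩⟩, ?_⟩
    simp only [q, LinearMap.comp_apply, Submodule.subtype_apply, Submodule.mkQ_apply,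
      Submodule.Quotient.eq]
    exact ⟨-x, by simp [hf]; abel⟩
  have hkq : LinearMap.ker q = LinearMap.range g := by
    ext v
    simp only [q, LinearMap.ker_comp, Submodule.ker_mkQ, Submodule.mem_comap,
      Submodule.subtype_apply]
    constructor
    · rintro ⟨x, hx⟩
      exact ⟨⟨x, hback x (hx ▸ v.2)⟩, Subtype.ext hx⟩
    · rintro ⟨x, rfl⟩
      exact ⟨x.1, rfl⟩
  let ecok : (V ⧸ LinearMap.range g) ≃ₗ[ℂ] M ⧸ LinearMap.range f :=
    (Submodule.quotEquivOfEq _ _ hkq.symm).trans (q.quotKerEquivOfSurjective hq)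
  refine ⟨Module.Finite.equiv eker, Module.Finite.equiv ecok, ?_⟩
  have h0 : g.index = 0 := by rw [LinearMap.index_eq_of_finiteDimensional, sub_self]
  rw [LinearMap.index_eq_finrank_sub] at h0 ⊢
  rw [← eker.finrank_eq, ← ecok.finrank_eq]
  exact h0

end Index

section OneAdd

variable {H : Type} [NormedAddCommGroup H] [NormedSpace ℂ H] [CompleteSpace H]

/-- The identity plus an approximable operator has index zero. -/
theorem idxIs_one_add {E : H →L[ℂ] H} (hE : AppFin E) :
    IdxIs ((1 + E : H →L[ℂ] H) : H →ₗ[ℂ] H) 0 := by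
  obtain ⟨F, hF, hn⟩ := hE (1 / 2) one_half_pos
  set u : (H →L[ℂ] H)ˣ :=
    Units.oneSub (-(E - F)) (by rw [norm_neg]; linarith) with hu
  have huv : (u : H →L[ℂ] H) = 1 + (E - F) := by rw [hu, Units.val_oneSub, sub_neg_eq_add]
  set e : H ≃ₗ[ℂ] H := (ContinuousLinearEquiv.ofUnit u).toLinearEquiv with he
  have hfac : ((1 + E : H →L[ℂ] H) : H →ₗ[ℂ] H) =
      (e : H →ₗ[ℂ] H).comp (LinearMap.id + (e.symm : H →ₗ[ℂ] H).comp (F : H →ₗ[ℂ] H)) := by
    ext x
    simp only [LinearMap.comp_apply, LinearMap.add_apply, LinearMap.id_coe, id_eq,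
      LinearEquiv.coe_coe, map_add, LinearEquiv.apply_symm_apply]
    change x + E x = (u : H →L[ℂ] H) x + F x
    rw [huv]
    simp [add_assoc]
  have : FiniteDimensional ℂ
      (LinearMap.range ((e.symm : H →ₗ[ℂ] H).comp (F : H →ₗ[ℂ] H))) := by
    rw [LinearMap.range_comp]; infer_instance
  rw [hfac]
  simpa using (idxIs_id_add_finrank ((e.symm : H →ₗ[ℂ] H).comp (F : H →ₗ[ℂ] H))).comp
    (idxIs_equiv e)

/-- An approximable perturbation of an operator with a two-sided approximate inverse. -/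
theorem idxIs_perturb {T A R : H →L[ℂ] H} {k : ℤ} (hA : IdxIs (A : H →ₗ[ℂ] H) k)
    (hT : AppFin (T - A)) (h1 : AppFin (A * R - 1)) (h2 : AppFin (R * A - 1)) :
    IdxIs (T : H →ₗ[ℂ] H) k := by
  have key : ∀ S : H →L[ℂ] H, AppFin (S * R - 1) → AppFin (R * S - 1) →
      ∃ j, IdxIs (S : H →ₗ[ℂ] H) j ∧ IdxIs (R : H →ₗ[ℂ] H) (-j) := by
    intro S hS1 hS2
    have i1 := idxIs_one_add hS1
    have i2 := idxIs_one_add hS2
    rw [add_sub_cancel] at i1 i2
    exact idxIs_of_quasi i1 i2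
  obtain ⟨j, hAj, hRj⟩ := key A h1 h2
  obtain ⟨i, hTi, hRi⟩ := key T
    (by
      have := (hT.comp_right R).add h1
      convert this using 1
      rw [ContinuousLinearMap.mul_def, ContinuousLinearMap.mul_def, ContinuousLinearMap.sub_comp]
      abel)
    (by
      have := (hT.comp_left R).add h2
      convert this using 1
      rw [ContinuousLinearMap.mul_def, ContinuousLinearMap.mul_def, ContinuousLinearMap.comp_sub]
      abel)
  have hki : i = k := by
    have a := hA.2.2
    have b := hAj.2.2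
    have c := hRj.2.2
    have d := hRi.2.2
    omega
  exact hki ▸ hTi

end OneAdd

section Shift

variable {H : Type} [NormedAddCommGroup H] [InnerProductSpace ℂ H] [CompleteSpace H]

/-- A unilateral shift along a Hilbert basis. -/
theorem exists_shift (b : HilbertBasis ℕ ℂ H) :
    ∃ R L : H →L[ℂ] H, (∀ n, R (b n) = b (n + 1)) ∧ (∀ n, L (b (n + 1)) = b n) ∧ L (b 0) = 0 ∧
      IdxIs (R : H →ₗ[ℂ] H) (-1) ∧ IdxIs (L : H →ₗ[ℂ] H) 1 ∧
      AppFin (R * L - 1) ∧ AppFin (L * R - 1) := by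
  classical
  have ho : Orthonormal ℂ fun n => b (n + 1) :=
    b.orthonormal.comp _ (add_left_injective 1)
  set Ri : H →ₗᵢ[ℂ] H :=
    ho.orthogonalFamily.linearIsometry.comp b.repr.toLinearIsometry with hRi
  set R : H →L[ℂ] H := Ri.toContinuousLinearMap with hR
  set L : H →L[ℂ] H := ContinuousLinearMap.adjoint R with hL
  have hRb : ∀ n, R (b n) = b (n + 1) := by
    intro n
    change ho.orthogonalFamily.linearIsometry (b.repr (b n)) = _
    rw [b.repr_self, OrthogonalFamily.linearIsometry_apply_single]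
    simp
  have hLR : ∀ x, L (R x) = x := by
    intro x
    refine ext_inner_left ℂ fun y => ?_
    rw [hL, ContinuousLinearMap.adjoint_inner_right]
    exact Ri.inner_map_map y x
  have hLb : ∀ n, L (b (n + 1)) = b n := fun n => by rw [← hRb, hLR]
  have hL0 : L (b 0) = 0 := by
    refine b.repr.injective ?_
    ext n
    rw [HilbertBasis.repr_apply_apply, HilbertBasis.repr_apply_apply, inner_zero_right, hL,
      ContinuousLinearMap.adjoint_inner_right, hRb]
    exact b.orthonormal.2 (Nat.succ_ne_zero n)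
  have hRL : R * L - 1 = -((innerSL ℂ (b 0)).smulRight (b 0)) := by
    refine ContinuousLinearMap.ext_on
      (Submodule.dense_iff_topologicalClosure_eq_top.2 b.dense_span) ?_
    rintro _ ⟨n, rfl⟩
    rcases n with _ | n
    · simp [hL0, inner_self_eq_norm_sq_to_K, b.orthonormal.1 0]
    · simp [hLb, hRb, b.orthonormal.2 (Nat.succ_ne_zero n).symm]
  have hRLfin : AppFin (R * L - 1) := by
    rw [hRL]
    refine appFin_of_finiteRange (Submodule.finiteDimensional_of_le
      (S₂ := Submodule.span ℂ {b 0}) ?_)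
    rintro _ ⟨x, rfl⟩
    simp only [ContinuousLinearMap.coe_coe, neg_apply, ContinuousLinearMap.smulRight_apply]
    exact neg_mem (Submodule.smul_mem _ _ (Submodule.mem_span_singleton_self _))
  have hLRfin : AppFin (L * R - 1) := by
    have : L * R - 1 = 0 := sub_eq_zero.2 (ContinuousLinearMap.ext hLR)
    rw [this]; exact appFin_zero
  have hker : LinearMap.ker (L : H →ₗ[ℂ] H) = Submodule.span ℂ {b 0} := by
    refine le_antisymm (fun x hx => ?_) ?_
    · rw [LinearMap.mem_ker, ContinuousLinearMap.coe_coe] at hx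
      have := congrArg (fun A : H →L[ℂ] H => A x) hRL
      simp [hx] at this
      rw [this]
      exact Submodule.smul_mem _ _ (Submodule.mem_span_singleton_self _)
    · rw [Submodule.span_le, Set.singleton_subset_iff]
      exact hL0
  have hsurj : Function.Surjective (L : H →ₗ[ℂ] H) := fun x => ⟨R x, hLR x⟩
  have hLidx : IdxIs (L : H →ₗ[ℂ] H) 1 := by
    refine ⟨hker ▸ inferInstance, ?_, ?_⟩
    · rw [LinearMap.range_eq_top.2 hsurj]; infer_instance
    · rw [LinearMap.index_of_surjective hsurj, hker,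
        finrank_span_singleton (b.orthonormal.ne_zero 0)]
      rfl
  obtain ⟨k, hk, hk'⟩ := idxIs_of_quasi (T := (L : H →ₗ[ℂ] H)) (R := (R : H →ₗ[ℂ] H))
    (by simpa using! idxIs_one_add hLRfin) (by simpa using! idxIs_one_add hRLfin)
  have hk1 : k = 1 := hk.2.2.symm.trans hLidx.2.2
  subst hk1
  exact ⟨R, L, hRb, hLb, hL0, hk', hLidx, hRLfin, hLRfin⟩

end Shift

end TorIdx
end VP212
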