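import Mathlib

/-!
P212 item 9: Hermite functions for the weight `exp (-π x ^ 2)`.
-/

open MeasureTheory Filter Topology Polynomial

namespace VP212
namespace TorIdx

/-- The Hermite polynomials for the weight `exp (-2 π x ^ 2)`. -/
noncomputable def hp : ℕ → Polynomial ℝ
  | 0 => 1
  | n + 1 => C (4 * Real.pi) * X * hp n - derivative (hp n)

theorem derivative_hp_succ (n : ℕ) :
    derivative (hp (n + 1)) = C (4 * Real.pi * (n + 1 : ℕ)) * hp n := by
  induction n with
  | zero => simp [hp]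
  | succ n ih =>
      rw [hp, derivative_sub, derivative_mul, derivative_mul, derivative_C, derivative_X, ih,
        derivative_mul, derivative_C]
      simp only [zero_mul, zero_add, mul_one]
      simp only [Nat.cast_add, Nat.cast_one, map_mul, map_add, map_natCast, map_one]
      rw [show hp (n + 1) = C (4 * Real.pi) * X * hp n - derivative (hp n) from rfl]
      simp only [map_mul]
      ring

/-- The Gaussian. -/
noncomputable def gs (x : ℝ) : ℝ := Real.exp (-(Real.pi * x ^ 2))

theorem hasDerivAt_gs (x : ℝ) : HasDerivAt gs (-(2 * Real.pi * x) * gs x) x := by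
  have h := ((((hasDerivAt_id x).pow 2).const_mul Real.pi).neg).exp
  refine h.congr_deriv ?_
  simp only [id_eq, gs, Pi.pow_apply, Pi.neg_apply]
  push_cast
  ring

theorem continuous_gs : Continuous gs := by unfold gs; fun_prop

/-- The unnormalised Hermite functions. -/
noncomputable def psi (n : ℕ) (x : ℝ) : ℝ := (hp n).eval x * gs x

theorem continuous_psi (n : ℕ) : Continuous (psi n) :=
  (hp n).continuous.mul continuous_gs

theorem hasDerivAt_psi (n : ℕ) (x : ℝ) :
    HasDerivAt (psi n) (-psi (n + 1) x + 2 * Real.pi * x * psi n x) x := by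
  refine (((hp n).hasDerivAt x).mul (hasDerivAt_gs x)).congr_deriv ?_
  simp only [psi, hp, eval_sub, eval_mul, eval_C, eval_X]
  ring

theorem psi_succ_eq (n : ℕ) (x : ℝ) :
    4 * Real.pi * x * psi (n + 1) x = psi (n + 2) x + 4 * Real.pi * (n + 1 : ℕ) * psi n x := by
  simp only [psi]
  conv_rhs => rw [show hp (n + 2) = C (4 * Real.pi) * X * hp (n + 1) - derivative (hp (n + 1))
    from rfl, derivative_hp_succ]
  simp only [eval_sub, eval_mul, eval_C, eval_X]
  ring

theorem psi_zero_eq (x : ℝ) : 4 * Real.pi * x * psi 0 x = psi 1 x := by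
  simp [psi, hp]

theorem gs_pos (x : ℝ) : 0 < gs x := Real.exp_pos _

theorem psi_zero (x : ℝ) : psi 0 x = gs x := by simp [psi, hp]

theorem gauss_exp_le (K : ℝ) :
    ∃ C, 0 ≤ C ∧ ∀ x : ℝ, gs x * Real.exp (K * |x|) ≤ C * Real.exp (-|x|) := by
  refine ⟨Real.exp ((K + 1) ^ 2 / (4 * Real.pi)), Real.exp_nonneg _, fun x => ?_⟩
  rw [gs, ← Real.exp_add, ← Real.exp_add]
  refine Real.exp_le_exp.2 ?_
  have hπ := Real.pi_pos
  have h : (K + 1) * |x| - Real.pi * x ^ 2 ≤ (K + 1) ^ 2 / (4 * Real.pi) := by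
    rw [le_div_iff₀ (by positivity), ← sq_abs x]
    nlinarith [sq_nonneg (2 * Real.pi * |x| - (K + 1))]
  linarith

theorem poly_exp_le (p : Polynomial ℝ) :
    ∃ C, 0 ≤ C ∧ ∀ x : ℝ, |p.eval x| ≤ C * Real.exp |x| := by
  refine ⟨∑ i ∈ Finset.range (p.natDegree + 1), |p.coeff i| * (i.factorial : ℝ),
    Finset.sum_nonneg fun i _ => by positivity, fun x => ?_⟩
  rw [eval_eq_sum_range, Finset.sum_mul]
  refine (Finset.abs_sum_le_sum_abs _ _).trans (Finset.sum_le_sum fun i _ => ?_)
  rw [abs_mul, abs_pow, mul_assoc]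
  refine mul_le_mul_of_nonneg_left ?_ (abs_nonneg _)
  have h := Real.pow_div_factorial_le_exp |x| (abs_nonneg x) i
  rw [div_le_iff₀ (by positivity)] at h
  linarith

theorem poly_gauss_le (p : Polynomial ℝ) :
    ∃ C, 0 ≤ C ∧ ∀ x : ℝ, |p.eval x| * gs x ≤ C * Real.exp (-|x|) := by
  obtain ⟨C1, hC1, h1⟩ := poly_exp_le p
  obtain ⟨C2, hC2, h2⟩ := gauss_exp_le 1
  refine ⟨C1 * C2, by positivity, fun x => ?_⟩
  calc |p.eval x| * gs x ≤ C1 * Real.exp |x| * gs x :=
        mul_le_mul_of_nonneg_right (h1 x) (gs_pos x).le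
    _ = C1 * (gs x * Real.exp (1 * |x|)) := by rw [one_mul]; ring
    _ ≤ C1 * (C2 * Real.exp (-|x|)) := mul_le_mul_of_nonneg_left (h2 x) hC1
    _ = _ := by ring

theorem psi_le (n : ℕ) : ∃ C, 0 ≤ C ∧ ∀ x : ℝ, |psi n x| ≤ C * Real.exp (-|x|) := by
  obtain ⟨C, hC, h⟩ := poly_gauss_le (hp n)
  exact ⟨C, hC, fun x => by rw [psi, abs_mul, abs_of_pos (gs_pos x)]; exact h x⟩

theorem integrable_exp_neg_abs : Integrable (fun x : ℝ => Real.exp (-|x|)) := by
  rw [← integrableOn_univ, ← Set.Iic_union_Ioi (a := (0 : ℝ)), integrableOn_union]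
  refine ⟨?_, ?_⟩
  · refine integrableOn_exp_Iic (0 : ℝ) |>.congr_fun (fun x hx => ?_) measurableSet_Iic
    rw [abs_of_nonpos (Set.mem_Iic.1 hx), neg_neg]
  · refine (exp_neg_integrableOn_Ioi 0 one_pos).congr_fun (fun x hx => ?_) measurableSet_Ioi
    simp only [abs_of_pos (Set.mem_Ioi.1 hx)]
    ring_nf

theorem integrable_mul_of_decay {f g : ℝ → ℝ} (hf : Continuous f) (hg : Continuous g)
    {C D : ℝ} (h1 : ∀ x, |f x| ≤ C * Real.exp (-|x|)) (h2 : ∀ x, |g x| ≤ D * Real.exp (-|x|)) :
    Integrable fun x => f x * g x := by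
  refine (integrable_exp_neg_abs.const_mul (|C| * |D|)).mono' (hf.mul hg).aestronglyMeasurable
    (Eventually.of_forall fun x => ?_)
  rw [Real.norm_eq_abs, abs_mul]
  calc |f x| * |g x| ≤ (|C| * Real.exp (-|x|)) * (|D| * Real.exp (-|x|)) :=
        mul_le_mul ((h1 x).trans (mul_le_mul_of_nonneg_right (le_abs_self C) (Real.exp_nonneg _)))
          ((h2 x).trans (mul_le_mul_of_nonneg_right (le_abs_self D) (Real.exp_nonneg _)))
          (abs_nonneg _) (by positivity)
    _ ≤ |C| * |D| * Real.exp (-|x|) := by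
        have : Real.exp (-|x|) ≤ 1 := Real.exp_le_one_iff.2 (by linarith [abs_nonneg x])
        nlinarith [mul_nonneg (mul_nonneg (abs_nonneg C) (abs_nonneg D)) (Real.exp_nonneg (-|x|))]

theorem integrable_psi (m n : ℕ) : Integrable fun x => psi m x * psi n x := by
  obtain ⟨C, _, hC⟩ := psi_le m
  obtain ⟨D, _, hD⟩ := psi_le n
  exact integrable_mul_of_decay (continuous_psi m) (continuous_psi n) hC hD

/-- The inner products of the Hermite functions. -/
noncomputable def psiInt (m n : ℕ) : ℝ := ∫ x, psi m x * psi n x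

theorem psiInt_succ (m n : ℕ) :
    psiInt m (n + 1) = 4 * Real.pi * (m : ℝ) * psiInt (m - 1) n := by
  have hder : ∀ x, HasDerivAt (fun x => psi m x * psi n x)
      (4 * Real.pi * (m : ℝ) * (psi (m - 1) x * psi n x) - psi m x * psi (n + 1) x) x := by
    intro x
    refine ((hasDerivAt_psi m x).mul (hasDerivAt_psi n x)).congr_deriv ?_
    rcases m with _ | j
    · simp only [Nat.cast_zero]
      have := psi_zero_eq x
      linear_combination (psi n x) * this
    · have := psi_succ_eq j x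
      simp only [Nat.add_sub_cancel]
      linear_combination (psi n x) * this
  have h0 := integral_eq_zero_of_hasDerivAt_of_integrable hder
    (((integrable_psi (m - 1) n).const_mul _).sub (integrable_psi m (n + 1))) (integrable_psi m n)
  rw [integral_sub ((integrable_psi (m - 1) n).const_mul _) (integrable_psi m (n + 1)),
    integral_const_mul] at h0
  unfold psiInt
  linarith

theorem psiInt_comm (m n : ℕ) : psiInt m n = psiInt n m := by
  simp only [psiInt, mul_comm]

theorem psiInt_zero_pos : 0 < psiInt 0 0 := by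
  rw [psiInt, integral_pos_iff_support_of_nonneg
    (fun x => mul_self_nonneg _) (integrable_psi 0 0)]
  have : Function.support (fun x => psi 0 x * psi 0 x) = Set.univ := by
    ext x
    simpa [psi_zero] using (gs_pos x).ne'
  rw [this]
  simp

/-- The square norms of the Hermite functions. -/
noncomputable def nrm2 (n : ℕ) : ℝ := psiInt n n

theorem nrm2_succ (n : ℕ) : nrm2 (n + 1) = 4 * Real.pi * (n + 1 : ℕ) * nrm2 n := by
  rw [nrm2, psiInt_succ]; rfl

theorem nrm2_pos (n : ℕ) : 0 < nrm2 n := by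
  induction n with
  | zero => exact psiInt_zero_pos
  | succ n ih => rw [nrm2_succ]; positivity

theorem psiInt_ne (m n : ℕ) (h : m ≠ n) : psiInt m n = 0 := by
  induction n generalizing m with
  | zero =>
      rcases m with _ | m
      · exact absurd rfl h
      · rw [psiInt_comm, psiInt_succ]; simp
  | succ n ih =>
      rw [psiInt_succ]
      rcases m with _ | m
      · simp
      · rw [ih (m + 1 - 1) (by omega), mul_zero]

/-- The normalised Hermite functions. -/
noncomputable def phi (n : ℕ) (x : ℝ) : ℂ := ((psi n x / Real.sqrt (nrm2 n) : ℝ) : ℂ)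

theorem continuous_phi (n : ℕ) : Continuous (phi n) :=
  Complex.continuous_ofReal.comp ((continuous_psi n).div_const _)

theorem sqrt_nrm2_succ (n : ℕ) :
    Real.sqrt (nrm2 (n + 1)) = Real.sqrt (4 * Real.pi * (n + 1 : ℕ)) * Real.sqrt (nrm2 n) := by
  rw [nrm2_succ, Real.sqrt_mul (by positivity)]

theorem hasDerivAt_phi_up (n : ℕ) (x : ℝ) :
    HasDerivAt (phi n)
      (-(Real.sqrt (4 * Real.pi * (n + 1 : ℕ)) : ℂ) * phi (n + 1) x
        + (2 * Real.pi : ℝ) * x * phi n x) x := by
  refine ((hasDerivAt_psi n x).div_const (Real.sqrt (nrm2 n))).ofReal_comp.congr_deriv ?_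
  rw [phi, phi, sqrt_nrm2_succ]
  have h1 : Real.sqrt (4 * Real.pi * (n + 1 : ℕ)) ≠ 0 :=
    (Real.sqrt_pos.2 (by positivity)).ne'
  have h2 : Real.sqrt (nrm2 n) ≠ 0 := (Real.sqrt_pos.2 (nrm2_pos n)).ne'
  norm_cast
  field_simp

theorem hasDerivAt_phi_down (n : ℕ) (x : ℝ) :
    HasDerivAt (phi n)
      ((Real.sqrt (4 * Real.pi * (n : ℕ)) : ℂ) * phi (n - 1) x
        + (-(2 * Real.pi) : ℝ) * x * phi n x) x := by
  refine ((hasDerivAt_psi n x).div_const (Real.sqrt (nrm2 n))).ofReal_comp.congr_deriv ?_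
  rcases n with _ | j
  · have := psi_zero_eq x
    have hs : Real.sqrt (4 * Real.pi * ((0 : ℕ) : ℝ)) = 0 := by simp
    rw [hs, phi]
    have e : -psi (0 + 1) x + 2 * Real.pi * x * psi 0 x = -(2 * Real.pi * x * psi 0 x) := by
      simp only [zero_add]; linarith
    rw [e]
    norm_cast
    ring
  · simp only [Nat.add_sub_cancel]
    rw [phi, phi, sqrt_nrm2_succ]
    have h2 : Real.sqrt (nrm2 j) ≠ 0 := (Real.sqrt_pos.2 (nrm2_pos j)).ne'
    have h1 : Real.sqrt (4 * Real.pi * (j + 1 : ℕ)) ≠ 0 :=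
      (Real.sqrt_pos.2 (by positivity)).ne'
    have h3 := Real.mul_self_sqrt (show (0 : ℝ) ≤ 4 * Real.pi * (j + 1 : ℕ) by positivity)
    have := psi_succ_eq j x
    norm_cast
    field_simp
    push_cast at *
    rw [mul_comm (4 : ℝ) Real.pi] at h3
    first | rw [h3] | rw [sq, h3]
    linarith

theorem phi_integral (m n : ℕ) :
    ∫ x, (starRingEnd ℂ) (phi m x) * phi n x = if m = n then 1 else 0 := by
  simp only [phi, Complex.conj_ofReal]
  norm_cast
  have : ∫ x, psi m x / Real.sqrt (nrm2 m) * (psi n x / Real.sqrt (nrm2 n)) =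
      psiInt m n / (Real.sqrt (nrm2 m) * Real.sqrt (nrm2 n)) := by
    rw [psiInt, ← integral_div]
    exact integral_congr_ae (Eventually.of_forall fun x => div_mul_div_comm _ _ _ _)
  rw [this]
  split_ifs with h
  · subst h
    rw [Real.mul_self_sqrt (nrm2_pos m).le]
    change (((nrm2 m / nrm2 m : ℝ)) : ℂ) = _
    rw [div_self (nrm2_pos m).ne']
    simp
  · rw [psiInt_ne m n h]
    simp

theorem psi_eq_phi (n : ℕ) :
    (fun x => ((psi n x : ℝ) : ℂ)) = fun x => (Real.sqrt (nrm2 n) : ℂ) * phi n x := by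
  funext x
  rw [phi]
  push_cast
  rw [mul_div_cancel₀ _ (Complex.ofReal_ne_zero.2 (Real.sqrt_pos.2 (nrm2_pos n)).ne')]

end TorIdx
end VP212
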