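import Vale.Agent.P212.Index.Frame

/-!
P212 item 9: the index of the phase between lines of degree `±1` and between constants.
-/

open scoped InnerProductSpace
open MeasureTheory Filter Topology ComplexConjugate

namespace VP212
namespace TorIdx

variable {ι : Type} [Fintype ι] [DecidableEq ι] {m : ℤ × ℤ → ℂ} {W : TorusL2 →L[ℂ] TorusL2}

theorem amplDiag_apply (W : TorusL2 →L[ℂ] TorusL2) (v : Ampl ι TorusL2) (i : ι) :
    amplMat (Matrix.diagonal fun _ => W) v i = W (v i) := by
  simp only [amplMat, ContinuousLinearMap.comp_apply]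
  change (ContinuousLinearMap.pi fun i => ∑ j, ((Matrix.diagonal fun _ : ι => W) i j).comp
    (PiLp.proj 2 (fun _ : ι => TorusL2) j)) v i = _
  simp only [ContinuousLinearMap.pi_apply, sum_apply, ContinuousLinearMap.comp_apply,
    Matrix.diagonal_apply]
  rw [Finset.sum_eq_single i]
  · simp
  · intro j _ hj; simp [Ne.symm hj]
  · intro h; exact absurd (Finset.mem_univ i) h

theorem hasIndexBetween_of_equiv {H V : Type} [NormedAddCommGroup H] [InnerProductSpace ℂ H]
    [AddCommGroup V] [Module ℂ V] {P T : H →L[ℂ] H}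
    (e : LinearMap.range (P : H →ₗ[ℂ] H) ≃ₗ[ℂ] V) {f : V →ₗ[ℂ] V} {k : ℤ} (hf : IdxIs f k)
    (h : ∀ x, ((e.symm (f (e x)) : LinearMap.range (P : H →ₗ[ℂ] H)) : H) = P (T x)) :
    HasIndexBetween P P T k := by
  have := ((idxIs_equiv e).comp hf).comp (idxIs_equiv e.symm)
  rw [add_zero, zero_add] at this
  obtain ⟨h1, h2, h3⟩ := this
  exact ⟨_, h, h1, h2, by rw [← LinearMap.index_eq_finrank_sub]; exact h3⟩

theorem const_case (hm : PhaseLike m) (hW : IsMultiplier m W) (G : Finset ι)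
    (Cop : Ampl ι TorusL2 →L[ℂ] Ampl ι TorusL2)
    (hC : ∀ v i, (Cop v i : TorusL2) = if i ∈ G then v i else 0) :
    HasIndexBetween Cop Cop (amplMat (Matrix.diagonal fun _ => W)) 0 := by
  have hmem : ∀ x : LinearMap.range (Cop : Ampl ι TorusL2 →ₗ[ℂ] Ampl ι TorusL2), ∀ i, i ∉ G →
      (x : Ampl ι TorusL2) i = 0 := by
    rintro ⟨_, v, rfl⟩ i hi
    exact (hC v i).trans (if_neg hi)
  let ext : (G → TorusL2) → Ampl ι TorusL2 := fun u =>
    WithLp.toLp 2 fun i => if h : i ∈ G then u ⟨i, h⟩ else 0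
  have hext : ∀ u, ext u ∈ LinearMap.range (Cop : Ampl ι TorusL2 →ₗ[ℂ] Ampl ι TorusL2) := fun u =>
    ⟨ext u, PiLp.ext fun i => by
      rw [ContinuousLinearMap.coe_coe, hC]
      simp only [ext]
      split_ifs <;> rfl⟩
  let e : LinearMap.range (Cop : Ampl ι TorusL2 →ₗ[ℂ] Ampl ι TorusL2) ≃ₗ[ℂ] (G → TorusL2) :=
    { toFun := fun x i => (x : Ampl ι TorusL2) i
      invFun := fun u => ⟨ext u, hext u⟩
      map_add' := fun _ _ => rfl
      map_smul' := fun _ _ => rfl
      left_inv := fun x => Subtype.ext (PiLp.ext fun i => by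
        simp only [ext]
        split_ifs with h
        · rfl
        · exact (hmem x i h).symm)
      right_inv := fun u => funext fun i => by simp [ext] }
  refine hasIndexBetween_of_equiv e (idxIs_pi hm hW G) fun x => PiLp.ext fun i => ?_
  rw [hC, amplDiag_apply]
  change ext _ i = _
  simp only [ext, e]
  split_ifs with h <;> rfl

theorem line_case (hm : PhaseLike m) (hW : IsMultiplier m W) {d : ℤ} (hd : d = 1 ∨ d = -1)
    (F : Finset ι) (P : Torus → Matrix ι ι ℂ) (Pop : Ampl ι TorusL2 →L[ℂ] Ampl ι TorusL2)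
    (hP : IsLinePlus d F P)
    (hPop : ∀ v i, ⇑(Pop v i) =ᵐ[volume] fun x => ∑ j, P x i j * (v j : TorusL2) x) :
    ∃ k : ℤ, (k = 1 ∨ k = -1) ∧
      HasIndexBetween Pop Pop (amplMat (Matrix.diagonal fun _ => W)) k := by
  obtain ⟨ξ, hξ, hξF, hPξ⟩ := hP
  obtain ⟨k, hk, hidx⟩ := idxIs_compressed hm hW hd hξ
  refine ⟨k, hk, ?_⟩
  have hx0 : ∀ i ∈ F, xiT ξ i = fun _ => (0 : ℂ) := fun i hi =>
    funext fun x => hξF _ _ i hi
  let Y : Ampl ι TorusL2 →L[ℂ] TorusL2 :=
    ∑ j, (mulOp fun x => conj (xiT ξ j x)).comp (PiLp.proj 2 (fun _ : ι => TorusL2) j)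
  have hY : ∀ v, Y v = ∑ j, mulOp (fun x => conj (xiT ξ j x)) (v j) := fun v => by simp [Y]
  have hPop' : ∀ v i, (Pop v i : TorusL2) = mulOp (xiT ξ i) (Y v) + if i ∈ F then v i else 0 := by
    intro v i
    have hS : ⇑(Y v) =ᵐ[volume] fun x => ∑ j, conj (xiT ξ j x) * (v j : TorusL2) x := by
      rw [hY]
      filter_upwards [Lp.coeFn_finsetSum Finset.univ fun j =>
        mulOp (fun x => conj (xiT ξ j x)) (v j),
        ae_all_iff.2 fun j => mulOp_ae (bm_xiT hξ j).conj (v j)] with x h1 h2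
      rw [h1]
      simp [h2]
    apply Lp.ext
    have hite : ⇑(if i ∈ F then v i else 0 : TorusL2) =ᵐ[volume]
        fun x => if i ∈ F then (v i : TorusL2) x else 0 := by
      split_ifs
      · exact ae_eq_refl _
      · exact Lp.coeFn_zero _ _ _
    filter_upwards [hPop v i, Lp.coeFn_add (mulOp (xiT ξ i) (Y v)) (if i ∈ F then v i else 0),
      mulOp_ae (bm_xiT hξ i) (Y v), hS, hite] with x h1 h2 h3 h4 h5
    rw [h1, h2, Pi.add_apply, h3, h4, h5]
    have hPx : ∀ j, P x i j = xiT ξ i x * conj (xiT ξ j x) +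
        if i = j ∧ i ∈ F then 1 else 0 := by
      intro j
      have hh := hPξ (rep x.1) (rep x.2) i j
      rw [coe_rep, coe_rep] at hh
      refine hh.trans ?_
      simp only [xiT]
      congr
    simp only [hPx, add_mul, Finset.sum_add_distrib, Finset.mul_sum]
    congr 1
    · exact Finset.sum_congr rfl fun j _ => mul_assoc _ _ _
    · rw [Finset.sum_eq_single i]
      · by_cases h : i ∈ F <;> simp [h]
      · intro j _ hj; simp [Ne.symm hj]
      · intro h; exact absurd (Finset.mem_univ i) h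
  have hYzero : ∀ v : Ampl ι TorusL2, (∀ i, i ∉ F → v i = 0) → Y v = 0 := by
    intro v hv
    rw [hY]
    refine Finset.sum_eq_zero fun j _ => ?_
    by_cases hj : j ∈ F
    · simp [hx0 j hj, mulOp_zero]
    · simp [hv j hj]
  have hYxi : ∀ g : TorusL2, ∑ j, mulOp (fun x => conj (xiT ξ j x)) (mulOp (xiT ξ j) g) = g := by
    intro g
    simp only [mulOp_apply_comp (bm_xiT hξ _).conj (bm_xiT hξ _)]
    rw [← sum_apply, ← mulOp_sum _ fun j _ => (bm_xiT hξ j).conj.mul (bm_xiT hξ j),
      show (fun x => ∑ j, conj (xiT ξ j x) * xiT ξ j x) = fun _ => (1 : ℂ) from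
        funext (sum_conj_xiT hξ), mulOp_one]
    rfl
  let ext : TorusL2 × (F → TorusL2) → Ampl ι TorusL2 := fun p =>
    WithLp.toLp 2 fun i => mulOp (xiT ξ i) p.1 + if h : i ∈ F then p.2 ⟨i, h⟩ else 0
  have hYext : ∀ p, Y (ext p) = p.1 := by
    intro p
    rw [hY]
    conv_rhs => rw [← hYxi p.1]
    refine Finset.sum_congr rfl fun j _ => ?_
    by_cases hj : j ∈ F
    · simp [hx0 j hj, mulOp_zero]
    · simp [ext, hj]
  have hext : ∀ p, ext p ∈ LinearMap.range (Pop : Ampl ι TorusL2 →ₗ[ℂ] Ampl ι TorusL2) := fun p =>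
    ⟨ext p, PiLp.ext fun i => by
      rw [ContinuousLinearMap.coe_coe, hPop', hYext]
      simp only [ext]
      by_cases hi : i ∈ F <;> simp [hi, hx0, mulOp_zero]⟩
  have hYPop : ∀ v, Y (Pop v) = Y v := by
    intro v
    rw [hY (Pop v)]
    conv_rhs => rw [← hYxi (Y v)]
    refine Finset.sum_congr rfl fun j _ => ?_
    by_cases hj : j ∈ F
    · simp [hx0 j hj, mulOp_zero]
    · rw [hPop', if_neg hj, add_zero]
  have hfix : ∀ x : LinearMap.range (Pop : Ampl ι TorusL2 →ₗ[ℂ] Ampl ι TorusL2),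
      ext (Y x, fun i => (x : Ampl ι TorusL2) i) = x := by
    rintro ⟨_, v, rfl⟩
    refine PiLp.ext fun i => ?_
    simp only [ContinuousLinearMap.coe_coe, ext, hYPop]
    by_cases hi : i ∈ F
    · simp [hi, hx0 i hi, mulOp_zero]
    · rw [dif_neg hi, add_zero, hPop', if_neg hi, add_zero]
  let e : LinearMap.range (Pop : Ampl ι TorusL2 →ₗ[ℂ] Ampl ι TorusL2) ≃ₗ[ℂ]
      TorusL2 × (F → TorusL2) :=
    { toFun := fun x => (Y x, fun i => (x : Ampl ι TorusL2) i)
      invFun := fun p => ⟨ext p, hext p⟩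
      map_add' := fun x y => Prod.ext (map_add Y _ _) rfl
      map_smul' := fun c x => Prod.ext (map_smul Y _ _) rfl
      left_inv := fun x => Subtype.ext (hfix x)
      right_inv := fun p => Prod.ext (hYext p) (funext fun i => by
        simp [ext, hx0 i.1 i.2, mulOp_zero]) }
  have := hidx.prodMap (idxIs_pi hm hW F)
  rw [add_zero] at this
  refine hasIndexBetween_of_equiv e this fun x => PiLp.ext fun i => ?_
  rw [hPop', amplDiag_apply]
  change ext _ i = _
  simp only [ext, e, LinearEquiv.coe_mk, LinearMap.coe_mk, AddHom.coe_mk, LinearMap.prodMap_apply,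
    LinearMap.pi_apply, LinearMap.comp_apply, LinearMap.proj_apply, ContinuousLinearMap.coe_coe,
    sum_apply, ContinuousLinearMap.comp_apply]
  by_cases hi : i ∈ F
  · simp [hi, hx0 i hi, mulOp_zero]
  · rw [dif_neg hi, if_neg hi]
    congr 2
    conv_rhs => rw [hY]
    refine Finset.sum_congr rfl fun j _ => ?_
    rw [amplDiag_apply]
    by_cases hj : j ∈ F
    · simp [hx0 j hj, mulOp_zero]
    · congr 2
      have := congrArg (fun z : Ampl ι TorusL2 => z j) (hfix x)
      simpa [ext, hj] using this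

end TorIdx

/-- The index of the phase between lines of degree `±1` is `±1`, between constants it is `0`. -/
theorem torusIndex : TorusIndexSpec := fun _ _ _ _ _ hm hW =>
  ⟨fun _ F P Pop hd hP hPop => TorIdx.line_case hm hW hd F P Pop hP hPop,
    fun G Cop hC => TorIdx.const_case hm hW G Cop hC⟩

end VP212
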