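import Vale.Agent.P212.Base.Torus

/-!
P212 item 9: multiplication operators and characters on the torus.
-/

open scoped InnerProductSpace ENNReal
open MeasureTheory Filter Topology ComplexConjugate

namespace VP212
namespace TorIdx

/-- A bounded measurable function on the torus. -/
def BM (f : Torus → ℂ) : Prop := Measurable f ∧ ∃ C : ℝ, ∀ x, ‖f x‖ ≤ C

theorem BM.add {f g : Torus → ℂ} (hf : BM f) (hg : BM g) : BM fun x => f x + g x := by
  obtain ⟨hm, C, hC⟩ := hf
  obtain ⟨hm', D, hD⟩ := hg
  exact ⟨hm.add hm', C + D, fun x => (norm_add_le _ _).trans (add_le_add (hC x) (hD x))⟩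

theorem BM.mul {f g : Torus → ℂ} (hf : BM f) (hg : BM g) : BM fun x => f x * g x := by
  obtain ⟨hm, C, hC⟩ := hf
  obtain ⟨hm', D, hD⟩ := hg
  refine ⟨hm.mul hm', |C| * |D|, fun x => ?_⟩
  rw [norm_mul]
  exact mul_le_mul ((hC x).trans (le_abs_self C)) ((hD x).trans (le_abs_self D))
    (norm_nonneg _) (abs_nonneg _)

theorem BM.const (c : ℂ) : BM fun _ => c := ⟨measurable_const, ‖c‖, fun _ => le_rfl⟩

theorem BM.conj {f : Torus → ℂ} (hf : BM f) : BM fun x => conj (f x) := by
  obtain ⟨hm, C, hC⟩ := hf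
  exact ⟨Complex.continuous_conj.measurable.comp hm, C, fun x => by simpa using hC x⟩

theorem BM.sum {α : Type*} (s : Finset α) {f : α → Torus → ℂ} (hf : ∀ a ∈ s, BM (f a)) :
    BM fun x => ∑ a ∈ s, f a x := by
  classical
  induction s using Finset.induction with
  | empty => simpa using BM.const 0
  | insert a s ha ih =>
      simp only [Finset.sum_insert ha]
      exact (hf a (Finset.mem_insert_self a s)).add
        (ih fun b hb => hf b (Finset.mem_insert_of_mem hb))

theorem bm_cm (f : C(Torus, ℂ)) : BM f :=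
  ⟨f.continuous.measurable, ‖f‖, fun x => f.norm_coe_le_norm x⟩

theorem BM.memLp {f : Torus → ℂ} (hf : BM f) (p : ℝ≥0∞) : MemLp f p (volume : Measure Torus) := by
  obtain ⟨hm, C, hC⟩ := hf
  exact MemLp.of_bound hm.aestronglyMeasurable C (Eventually.of_forall hC)

open Classical in
/-- Multiplication by a bounded measurable function. -/
noncomputable def mulOp (f : Torus → ℂ) : TorusL2 →L[ℂ] TorusL2 :=
  if h : BM f then
    (ContinuousLinearMap.mul ℂ ℂ).holderL (volume : Measure Torus) ∞ 2 2 ((h.memLp ∞).toLp f)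
  else 0

theorem mulOp_ae {f : Torus → ℂ} (hf : BM f) (v : TorusL2) :
    ⇑(mulOp f v) =ᵐ[volume] fun x => f x * v x := by
  rw [mulOp, dif_pos hf]
  simp only [ContinuousLinearMap.holderL_apply_apply]
  filter_upwards [ContinuousLinearMap.coeFn_holder (r := 2) (ContinuousLinearMap.mul ℂ ℂ)
    ((hf.memLp ∞).toLp f) v, (hf.memLp ∞).coeFn_toLp] with x hx hx'
  rw [hx]
  simp [hx']

theorem mulOp_apply_comp {f g : Torus → ℂ} (hf : BM f) (hg : BM g) (v : TorusL2) :
    mulOp f (mulOp g v) = mulOp (fun x => f x * g x) v := by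
  apply Lp.ext
  filter_upwards [mulOp_ae hf (mulOp g v), mulOp_ae hg v, mulOp_ae (hf.mul hg) v] with x h1 h2 h3
  rw [h1, h2, h3, mul_assoc]

theorem mulOp_comp {f g : Torus → ℂ} (hf : BM f) (hg : BM g) :
    (mulOp f).comp (mulOp g) = mulOp fun x => f x * g x :=
  ContinuousLinearMap.ext fun v => mulOp_apply_comp hf hg v

theorem mulOp_add {f g : Torus → ℂ} (hf : BM f) (hg : BM g) :
    mulOp (fun x => f x + g x) = mulOp f + mulOp g := by
  ext v : 1
  apply Lp.ext
  rw [add_apply]
  filter_upwards [Lp.coeFn_add (mulOp f v) (mulOp g v), mulOp_ae hf v, mulOp_ae hg v,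
    mulOp_ae (hf.add hg) v] with x h1 h2 h3 h4
  rw [h4, h1, Pi.add_apply, h2, h3, add_mul]

theorem mulOp_smul {f : Torus → ℂ} (hf : BM f) (c : ℂ) :
    mulOp (fun x => c * f x) = c • mulOp f := by
  ext v : 1
  apply Lp.ext
  rw [smul_apply]
  filter_upwards [Lp.coeFn_smul c (mulOp f v), mulOp_ae hf v,
    mulOp_ae ((BM.const c).mul hf) v] with x h1 h2 h3
  rw [h3, h1, Pi.smul_apply, h2, smul_eq_mul, mul_assoc]

theorem mulOp_zero : mulOp (fun _ => (0 : ℂ)) = 0 := by
  simpa using mulOp_smul (BM.const 0) 0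

theorem mulOp_one : mulOp (fun _ => (1 : ℂ)) = ContinuousLinearMap.id ℂ TorusL2 := by
  ext v : 1
  apply Lp.ext
  filter_upwards [mulOp_ae (BM.const 1) v] with x hx
  simpa using hx

theorem mulOp_sub {f g : Torus → ℂ} (hf : BM f) (hg : BM g) :
    mulOp (fun x => f x - g x) = mulOp f - mulOp g := by
  have h := mulOp_add hf ((BM.const (-1)).mul hg)
  rw [mulOp_smul hg (-1), neg_one_smul, ← sub_eq_add_neg] at h
  simpa [sub_eq_add_neg] using h

theorem mulOp_sum {α : Type*} (s : Finset α) {f : α → Torus → ℂ} (hf : ∀ a ∈ s, BM (f a)) :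
    mulOp (fun x => ∑ a ∈ s, f a x) = ∑ a ∈ s, mulOp (f a) := by
  classical
  induction s using Finset.induction with
  | empty => simpa using mulOp_zero
  | insert a s ha ih =>
      simp only [Finset.sum_insert ha]
      rw [mulOp_add (hf a (Finset.mem_insert_self a s))
        (BM.sum s fun b hb => hf b (Finset.mem_insert_of_mem hb)),
        ih fun b hb => hf b (Finset.mem_insert_of_mem hb)]

theorem mulOp_norm_le {f : Torus → ℂ} (hf : BM f) {C : ℝ} (hC : 0 ≤ C) (h : ∀ x, ‖f x‖ ≤ C) :
    ‖mulOp f‖ ≤ C := by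
  refine ContinuousLinearMap.opNorm_le_bound _ hC fun v => ?_
  refine Lp.norm_le_mul_norm_of_ae_le_mul ?_
  filter_upwards [mulOp_ae hf v] with x hx
  rw [hx, norm_mul]
  exact mul_le_mul_of_nonneg_right (h x) (norm_nonneg _)

theorem inner_mulOp_left {f : Torus → ℂ} (hf : BM f) (u v : TorusL2) :
    ⟪mulOp f u, v⟫_ℂ = ⟪u, mulOp (fun x => conj (f x)) v⟫_ℂ := by
  rw [L2.inner_def, L2.inner_def]
  refine integral_congr_ae ?_
  filter_upwards [mulOp_ae hf u, mulOp_ae hf.conj v] with x h1 h2
  rw [h1, h2, RCLike.inner_apply, RCLike.inner_apply, map_mul]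
  ring

theorem mulOp_conj_eq_adjoint {f : Torus → ℂ} (hf : BM f) (u v : TorusL2) :
    ⟪mulOp (fun x => conj (f x)) u, v⟫_ℂ = ⟪u, mulOp f v⟫_ℂ := by
  simpa using inner_mulOp_left hf.conj u v

/-- The representative in the unit interval of a point of the circle. -/
noncomputable def rep (x : UnitAddCircle) : ℝ := (AddCircle.equivIco (1 : ℝ) 0 x : ℝ)

theorem rep_mem (x : UnitAddCircle) : rep x ∈ Set.Ico (0 : ℝ) 1 := by
  have h := (AddCircle.equivIco (1 : ℝ) 0 x).2
  simpa [rep, zero_add] using h

theorem rep_mem_Icc (x : UnitAddCircle) : rep x ∈ Set.Icc (0 : ℝ) 1 :=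
  ⟨(rep_mem x).1, (rep_mem x).2.le⟩

theorem coe_rep (x : UnitAddCircle) : ((rep x : ℝ) : UnitAddCircle) = x :=
  AddCircle.coe_equivIco

theorem rep_coe (a : ℝ) : rep (a : UnitAddCircle) = Int.fract a := by
  simp [rep]

theorem measurable_rep : Measurable rep :=
  measurable_subtype_coe.comp (AddCircle.measurableEquivIco (1 : ℝ) 0).measurable

/-- The characters as continuous functions. -/
noncomputable def charC (k : ℤ × ℤ) : C(Torus, ℂ) :=
  ⟨fun x => fourier k.1 x.1 * fourier k.2 x.2,
    ((fourier k.1).continuous.comp continuous_fst).mul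
      ((fourier k.2).continuous.comp continuous_snd)⟩

@[simp] theorem charC_apply (k : ℤ × ℤ) (x : Torus) :
    charC k x = fourier k.1 x.1 * fourier k.2 x.2 := rfl

theorem charC_mul (k l : ℤ × ℤ) (x : Torus) : charC k x * charC l x = charC (k + l) x := by
  simp only [charC_apply, Prod.fst_add, Prod.snd_add, fourier_add]
  ring

theorem charC_conj (k : ℤ × ℤ) (x : Torus) : conj (charC k x) = charC (-k) x := by
  simp only [charC_apply, Prod.fst_neg, Prod.snd_neg, fourier_neg, map_mul]

theorem charC_zero (x : Torus) : charC 0 x = 1 := by simp [charC_apply]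

/-- The characters as vectors. -/
noncomputable def chr (k : ℤ × ℤ) : TorusL2 :=
  ContinuousMap.toLp (E := ℂ) 2 (volume : Measure Torus) ℂ (charC k)

theorem chr_ae (k : ℤ × ℤ) : ⇑(chr k) =ᵐ[volume] charC k :=
  ContinuousMap.coeFn_toLp (volume : Measure Torus) (charC k)

theorem isChar_chr (k : ℤ × ℤ) : IsChar k (chr k) := chr_ae k

theorem integral_fourier (j : ℤ) :
    ∫ y : UnitAddCircle, fourier j y = if j = 0 then 1 else 0 := by
  rw [← UnitAddCircle.intervalIntegral_preimage 0]
  split_ifs with h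
  · subst h; simp
  · have hd : ∀ x ∈ Set.uIcc (0 : ℝ) (0 + 1), HasDerivAt
        (fun y : ℝ => (2 * Real.pi * Complex.I * j)⁻¹ * fourier j (y : UnitAddCircle))
        (fourier j (x : UnitAddCircle)) x := by
      intro x _
      have hj : (2 * Real.pi * Complex.I * j : ℂ) ≠ 0 := by simp [Real.pi_ne_zero, h]
      refine ((hasDerivAt_fourier (T := (1 : ℝ)) j x).const_mul _).congr_deriv ?_
      simp only [Complex.ofReal_one, div_one]
      rw [← mul_assoc, inv_mul_cancel₀ hj, one_mul]
    rw [intervalIntegral.integral_eq_sub_of_hasDerivAt hd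
      (Continuous.intervalIntegrable (by fun_prop) _ _)]
    simp only [zero_add, AddCircle.coe_period, QuotientAddGroup.mk_zero, sub_self]

/-- Integrals of functions of the coordinates `(rep x, y)`. -/
theorem integral_rep_mul (F : ℝ → ℂ) (j : ℤ) :
    ∫ x : Torus, F (rep x.1) * fourier j x.2 =
      if j = 0 then ∫ s in (0 : ℝ)..1, F s else 0 := by
  rw [show (volume : Measure Torus) = (volume : Measure UnitAddCircle).prod volume from rfl,
    integral_prod_mul (fun a => F (rep a)) (fun b : UnitAddCircle => fourier j b),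
    integral_fourier]
  split_ifs
  · rw [mul_one, ← UnitAddCircle.intervalIntegral_preimage 0, zero_add]
    refine intervalIntegral.integral_congr_ae ?_
    filter_upwards [MeasureTheory.Measure.ae_ne volume (1 : ℝ)] with s hs hs'
    rw [Set.uIoc_of_le zero_le_one] at hs'
    rw [rep_coe, Int.fract_eq_self.2 ⟨hs'.1.le, lt_of_le_of_ne hs'.2 hs⟩]
  · rw [mul_zero]

theorem inner_chr_chr (k l : ℤ × ℤ) : ⟪chr k, chr l⟫_ℂ = if k = l then 1 else 0 := by
  rw [chr, chr, ContinuousMap.inner_toLp]
  have h : (fun x : Torus => charC l x * conj (charC k x)) =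
      fun x => fourier (l.1 - k.1) x.1 * fourier (l.2 - k.2) x.2 := by
    funext x
    rw [charC_conj, charC_mul, charC_apply]
    simp [sub_eq_add_neg]
  rw [h, show (volume : Measure Torus) = (volume : Measure UnitAddCircle).prod volume from rfl,
    integral_prod_mul (fun a : UnitAddCircle => fourier (l.1 - k.1) a)
      (fun b : UnitAddCircle => fourier (l.2 - k.2) b), integral_fourier, integral_fourier]
  by_cases hkl : k = l
  · subst hkl; simp
  · rw [if_neg hkl]
    by_cases h1 : l.1 - k.1 = 0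
    · have h2 : l.2 - k.2 ≠ 0 := fun h2 =>
        hkl (Prod.ext (sub_eq_zero.1 h1).symm (sub_eq_zero.1 h2).symm)
      simp [h2]
    · simp [h1]

theorem orthonormal_chr : Orthonormal ℂ chr := by
  rw [orthonormal_iff_ite]
  exact inner_chr_chr

theorem span_charC_closure :
    (Submodule.span ℂ (Set.range charC)).topologicalClosure = ⊤ := by
  set A : StarSubalgebra ℂ C(Torus, ℂ) := StarAlgebra.adjoin ℂ (Set.range charC) with hA
  have hcoe : Subalgebra.toSubmodule A.toSubalgebra = Submodule.span ℂ (Set.range charC) := by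
    rw [hA, StarAlgebra.adjoin_toSubalgebra]
    have hstar : star (Set.range charC) = Set.range charC := by
      refine Set.ext fun f => ⟨?_, ?_⟩
      · rintro ⟨k, hk⟩
        refine ⟨-k, ?_⟩
        rw [← star_star f, ← hk]
        ext x
        exact (charC_conj k x).symm
      · rintro ⟨k, rfl⟩
        refine ⟨-k, ?_⟩
        ext x
        exact (charC_conj k x).symm
    rw [hstar, Set.union_self]
    apply Algebra.adjoin_eq_span_of_subset
    refine Set.Subset.trans ?_ Submodule.subset_span
    intro x hx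
    refine Submonoid.closure_induction (fun _ => id) ⟨0, ?_⟩ ?_ hx
    · ext1 z; simp
    · rintro - - - - ⟨m, rfl⟩ ⟨n, rfl⟩
      exact ⟨m + n, ContinuousMap.ext fun z => (charC_mul m n z).symm⟩
  have hsep : A.SeparatesPoints := by
    intro x y hxy
    by_cases h1 : x.1 = y.1
    · refine ⟨_, ⟨charC (0, 1), StarAlgebra.subset_adjoin ℂ _ ⟨(0, 1), rfl⟩, rfl⟩, ?_⟩
      have h2 : x.2 ≠ y.2 := fun h2 => hxy (Prod.ext h1 h2)
      simp only [charC_apply, fourier_zero, one_mul, fourier_one]
      exact fun h => h2 (AddCircle.injective_toCircle one_ne_zero (Subtype.ext h))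
    · refine ⟨_, ⟨charC (1, 0), StarAlgebra.subset_adjoin ℂ _ ⟨(1, 0), rfl⟩, rfl⟩, ?_⟩
      simp only [charC_apply, fourier_zero, mul_one, fourier_one]
      exact fun h => h1 (AddCircle.injective_toCircle one_ne_zero (Subtype.ext h))
  have htop := ContinuousMap.starSubalgebra_topologicalClosure_eq_top_of_separatesPoints A hsep
  rw [← hcoe]
  exact congr_arg (Subalgebra.toSubmodule <| StarSubalgebra.toSubalgebra ·) htop

theorem span_chr_closure : (Submodule.span ℂ (Set.range chr)).topologicalClosure = ⊤ := by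
  convert! (ContinuousMap.toLp_denseRange ℂ (volume : Measure Torus) ℂ
    (p := 2) (by simp)).topologicalClosure_map_submodule span_charC_closure
  rw [Submodule.map_span]
  congr 1
  exact Set.range_comp _ _

/-- The characters form a Hilbert basis. -/
noncomputable def chrBasis : HilbertBasis (ℤ × ℤ) ℂ TorusL2 :=
  HilbertBasis.mk orthonormal_chr span_chr_closure.ge

@[simp] theorem coe_chrBasis : ⇑chrBasis = chr := HilbertBasis.coe_mk _ _

theorem mulOp_charC_chr (l k : ℤ × ℤ) : mulOp (charC l) (chr k) = chr (l + k) := by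
  apply Lp.ext
  filter_upwards [mulOp_ae (bm_cm (charC l)) (chr k), chr_ae k, chr_ae (l + k)] with x h1 h2 h3
  rw [h1, h2, h3, charC_mul]

/-- The constant function one. -/
noncomputable def one2 : TorusL2 := chr 0

theorem mulOp_one2_ae {f : Torus → ℂ} (hf : BM f) : ⇑(mulOp f one2) =ᵐ[volume] f := by
  filter_upwards [mulOp_ae hf one2, chr_ae 0] with x h1 h2
  rw [h1, one2, h2, charC_zero, mul_one]

theorem inner_mulOp_one2 {f g : Torus → ℂ} (hf : BM f) (hg : BM g) :
    ⟪mulOp f one2, mulOp g one2⟫_ℂ = ∫ x, conj (f x) * g x := by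
  rw [L2.inner_def]
  refine integral_congr_ae ?_
  filter_upwards [mulOp_one2_ae hf, mulOp_one2_ae hg] with x h1 h2
  rw [h1, h2, RCLike.inner_apply, mul_comm]

theorem chr_eq_mulOp (k : ℤ × ℤ) : chr k = mulOp (charC k) one2 := by
  rw [one2, mulOp_charC_chr, add_zero]

end TorIdx
end VP212
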