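import Vale.Agent.P212.Index.Entries

/-!
P212 item 9: the phase on constant bundles, and the model shift of a line bundle.
-/

open scoped InnerProductSpace lp ENNReal
open MeasureTheory Filter Topology ComplexConjugate

namespace VP212
namespace TorIdx

variable {m : ℤ × ℤ → ℂ} {W : TorusL2 →L[ℂ] TorusL2}

theorem IdxIs.smul {M N : Type} [AddCommGroup M] [Module ℂ M] [AddCommGroup N] [Module ℂ N]
    {f : M →ₗ[ℂ] N} {k : ℤ} (h : IdxIs f k) {t : ℂ} (ht : t ≠ 0) : IdxIs (t • f) k := by
  obtain ⟨h1, h2, h3⟩ := h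
  refine ⟨?_, ?_, by rw [LinearMap.index_smul t ht, h3]⟩
  · rw [LinearMap.ker_smul _ _ ht]; exact h1
  · rw [LinearMap.range_smul _ _ ht]; exact h2

theorem IdxIs.prodMap {M N M' N' : Type} [AddCommGroup M] [Module ℂ M] [AddCommGroup N]
    [Module ℂ N] [AddCommGroup M'] [Module ℂ M'] [AddCommGroup N'] [Module ℂ N']
    {f : M →ₗ[ℂ] N} {g : M' →ₗ[ℂ] N'} {j k : ℤ} (hf : IdxIs f j) (hg : IdxIs g k) :
    IdxIs (f.prodMap g) (j + k) := by
  obtain ⟨a1, a2, a3⟩ := hf
  obtain ⟨b1, b2, b3⟩ := hg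
  let eker : LinearMap.ker (f.prodMap g) ≃ₗ[ℂ] LinearMap.ker f × LinearMap.ker g :=
    { toFun := fun x => (⟨x.1.1, (congrArg Prod.fst x.2 :)⟩, ⟨x.1.2, (congrArg Prod.snd x.2 :)⟩)
      invFun := fun x => ⟨(x.1.1, x.2.1), Prod.ext x.1.2 x.2.2⟩
      map_add' := fun _ _ => rfl
      map_smul' := fun _ _ => rfl
      left_inv := fun _ => rfl
      right_inv := fun _ => rfl }
  let q : N × N' →ₗ[ℂ] (N ⧸ LinearMap.range f) × (N' ⧸ LinearMap.range g) :=
    (LinearMap.range f).mkQ.prodMap (LinearMap.range g).mkQ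
  have hq : Function.Surjective q := fun y => by
    obtain ⟨a, ha⟩ := Submodule.mkQ_surjective _ y.1
    obtain ⟨b, hb⟩ := Submodule.mkQ_surjective _ y.2
    exact ⟨(a, b), Prod.ext ha hb⟩
  have hkq : LinearMap.ker q = LinearMap.range (f.prodMap g) := by
    simp only [q, LinearMap.ker_prodMap, Submodule.ker_mkQ, LinearMap.range_prodMap]
  let ecok := (Submodule.quotEquivOfEq _ _ hkq.symm).trans (q.quotKerEquivOfSurjective hq)
  refine ⟨Module.Finite.equiv eker.symm, Module.Finite.equiv ecok.symm, ?_⟩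
  rw [LinearMap.index_eq_finrank_sub, eker.finrank_eq, ecok.finrank_eq, Module.finrank_prod,
    Module.finrank_prod, ← a3, ← b3, LinearMap.index_eq_finrank_sub,
    LinearMap.index_eq_finrank_sub]
  push_cast
  ring

/-- The diagonal operator of a bounded sequence. -/
theorem exists_diag (w : ℤ × ℤ → ℂ) {C : ℝ} (hw : ∀ k, ‖w k‖ ≤ C) :
    ∃ A : TorusL2 →L[ℂ] TorusL2, ∀ k u, ⟪chr k, A u⟫_ℂ = w k * ⟪chr k, u⟫_ℂ := by
  have hmem : ∀ u : TorusL2, Memℓp (fun k => w k * chrBasis.repr u k) 2 := by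
    intro u
    refine memℓp_gen ?_
    have hs := (lp.memℓp (chrBasis.repr u)).summable (by norm_num : 0 < (2 : ℝ≥0∞).toReal)
    simp only [ENNReal.toReal_ofNat, Real.rpow_two] at hs ⊢
    refine Summable.of_nonneg_of_le (fun k => by positivity) (fun k => ?_) (hs.mul_left (C ^ 2))
    rw [norm_mul, mul_pow]
    exact mul_le_mul_of_nonneg_right (pow_le_pow_left₀ (norm_nonneg _) (hw k) 2) (by positivity)
  let T : TorusL2 →ₗ[ℂ] TorusL2 :=
    { toFun := fun u => chrBasis.repr.symm ⟨_, hmem u⟩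
      map_add' := fun u v => by
        rw [← map_add]; congr 1; ext k
        change w k * chrBasis.repr (u + v) k = _
        rw [map_add, lp.coeFn_add, Pi.add_apply, mul_add]
        rfl
      map_smul' := fun c u => by
        rw [RingHom.id_apply, ← map_smul]; congr 1; ext k
        change w k * chrBasis.repr (c • u) k = _
        rw [map_smul, lp.coeFn_smul, Pi.smul_apply, smul_eq_mul, mul_left_comm]
        rfl }
  have hC : 0 ≤ C := (norm_nonneg (w 0)).trans (hw 0)
  refine ⟨T.mkContinuous C fun u => ?_, fun k u => ?_⟩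
  · change ‖chrBasis.repr.symm ⟨_, hmem u⟩‖ ≤ _
    rw [LinearIsometryEquiv.norm_map, ← chrBasis.repr.norm_map u]
    refine lp.norm_le_of_forall_sum_le (by norm_num) (by positivity) fun s => ?_
    simp only [ENNReal.toReal_ofNat, Real.rpow_two, norm_mul, mul_pow]
    have hle := lp.sum_rpow_le_norm_rpow (p := 2) (by norm_num) (chrBasis.repr u) s
    simp only [ENNReal.toReal_ofNat, Real.rpow_two] at hle
    calc ∑ k ∈ s, ‖w k‖ ^ 2 * ‖chrBasis.repr u k‖ ^ 2
        ≤ ∑ k ∈ s, C ^ 2 * ‖chrBasis.repr u k‖ ^ 2 := Finset.sum_le_sum fun k _ =>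
          mul_le_mul_of_nonneg_right (pow_le_pow_left₀ (norm_nonneg _) (hw k) 2) (by positivity)
      _ = C ^ 2 * ∑ k ∈ s, ‖chrBasis.repr u k‖ ^ 2 := (Finset.mul_sum ..).symm
      _ ≤ _ := mul_le_mul_of_nonneg_left hle (by positivity)
  · rw [← coe_chrBasis, ← HilbertBasis.repr_apply_apply, ← HilbertBasis.repr_apply_apply]
    change chrBasis.repr (chrBasis.repr.symm ⟨_, hmem u⟩) k = _
    rw [LinearIsometryEquiv.apply_symm_apply]

/-- The phase is an invertible operator composed with the identity plus a finite rank one. -/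
theorem exists_factor (hm : PhaseLike m) (hW : IsMultiplier m W) :
    ∃ (e : TorusL2 ≃ₗ[ℂ] TorusL2) (F : TorusL2 →ₗ[ℂ] TorusL2),
      FiniteDimensional ℂ (LinearMap.range F) ∧ ∀ u, W u = e (u + F u) := by
  classical
  obtain ⟨G0, hG0⟩ := exists_finset_small (tendsto_phase_sub_w0 hm) (show (0 : ℝ) < 1 / 8 by norm_num)
  have hev := eventually_cofinite.1 (tendsto_aW.eventually_ge_atTop 2)
  set G : Finset (ℤ × ℤ) := G0 ∪ hev.toFinset with hG
  have hbig : ∀ k, k ∉ G → 1 / 4 ≤ ‖m k‖ := by
    intro k hk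
    simp only [hG, Finset.mem_union, Set.Finite.mem_toFinset, not_or, Set.mem_ofPred_eq,
      not_not] at hk
    have h1 := hG0 k hk.1
    have h2 : (1 : ℝ) / 2 ≤ ‖w0 k‖ := by
      rw [w0, norm_div, norm_mul, Complex.norm_real, Complex.norm_real, Real.norm_eq_abs,
        Real.norm_eq_abs, abs_of_pos (aW_pos k), abs_of_pos (by positivity), le_div_iff₀ (aW_pos k)]
      have h3 : aW k ≤ 1 + 2 * Real.pi * ‖zc k‖ := by
        rw [aW, Real.sqrt_le_left (by positivity)]
        nlinarith [Real.pi_pos, norm_nonneg (zc k), mul_nonneg Real.pi_pos.le (norm_nonneg (zc k))]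
      linarith [hk.2]
    have := norm_sub_norm_le (w0 k) (m k)
    rw [norm_sub_rev] at this
    linarith
  set w : ℤ × ℤ → ℂ := fun k => if k ∈ G then 1 else m k with hw
  have hw1 : ∀ k, ‖w k‖ ≤ 1 := fun k => by simp only [hw]; split_ifs <;> simp [hm.1 k]
  have hw4 : ∀ k, 1 / 4 ≤ ‖w k‖ := fun k => by
    simp only [hw]
    split_ifs with h
    · norm_num
    · exact hbig k h
  have hwne : ∀ k, w k ≠ 0 := fun k h => by have := hw4 k; rw [h, norm_zero] at this; norm_num at this
  obtain ⟨A, hA⟩ := exists_diag w hw1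
  obtain ⟨B, hB⟩ := exists_diag (fun k => (w k)⁻¹) (C := 4) fun k => by
    rw [norm_inv, inv_le_comm₀ (norm_pos_iff.2 (hwne k)) (by norm_num)]
    exact le_trans (by norm_num) (hw4 k)
  have hAB : ∀ u, A (B u) = u ∧ B (A u) = u := by
    intro u
    constructor <;>
    · refine chrBasis.repr.injective ?_
      ext k
      simp only [HilbertBasis.repr_apply_apply, coe_chrBasis, hA, hB]
      rw [← mul_assoc]
      simp [hwne k]
  let e : TorusL2 ≃ₗ[ℂ] TorusL2 :=
    LinearEquiv.ofLinearMap (A : TorusL2 →ₗ[ℂ] TorusL2) (B : TorusL2 →ₗ[ℂ] TorusL2)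
      (LinearMap.ext fun u => (hAB u).1) (LinearMap.ext fun u => (hAB u).2)
  let F : TorusL2 →L[ℂ] TorusL2 :=
    ∑ k ∈ G, (m k - 1) • (innerSL ℂ (chr k)).smulRight (chr k)
  refine ⟨e, F, ?_, fun u => ?_⟩
  · have : FiniteDimensional ℂ (Submodule.span ℂ ((G.image chr : Finset TorusL2) : Set TorusL2)) :=
      FiniteDimensional.span_of_finite ℂ (Finset.finite_toSet _)
    refine Submodule.finiteDimensional_of_le
      (S₂ := Submodule.span ℂ ((G.image chr : Finset TorusL2) : Set TorusL2)) ?_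
    rintro _ ⟨z, rfl⟩
    simp only [F, ContinuousLinearMap.coe_coe, sum_apply, smul_apply,
      ContinuousLinearMap.smulRight_apply]
    exact Submodule.sum_mem _ fun k hk => Submodule.smul_mem _ _ (Submodule.smul_mem _ _
      (Submodule.subset_span (Finset.mem_coe.2 (Finset.mem_image_of_mem _ hk))))
  · refine chrBasis.repr.injective ?_
    ext k
    change _ = chrBasis.repr (A (u + F u)) k
    simp only [HilbertBasis.repr_apply_apply, coe_chrBasis, inner_chr_W hW, hA, inner_add_right, F,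
      sum_apply, smul_apply, ContinuousLinearMap.smulRight_apply, innerSL_apply_apply, inner_sum,
      inner_smul_right, inner_chr_chr, mul_ite, mul_one, mul_zero, Finset.sum_ite_eq, hw]
    split_ifs with h
    · ring
    · ring

/-- The phase applied coordinatewise has index zero. -/
theorem idxIs_pi (hm : PhaseLike m) (hW : IsMultiplier m W) (σ : Type) [Finite σ] :
    IdxIs (LinearMap.pi fun i : σ => (W : TorusL2 →ₗ[ℂ] TorusL2).comp
      (LinearMap.proj (φ := fun _ : σ => TorusL2) i)) 0 := by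
  obtain ⟨e, F, hF, hWe⟩ := exists_factor hm hW
  set FF : (σ → TorusL2) →ₗ[ℂ] (σ → TorusL2) :=
    LinearMap.pi fun i => F.comp (LinearMap.proj (φ := fun _ : σ => TorusL2) i) with hFF
  set inc : (σ → LinearMap.range F) →ₗ[ℂ] (σ → TorusL2) :=
    LinearMap.pi fun i => (LinearMap.range F).subtype.comp
      (LinearMap.proj (φ := fun _ : σ => LinearMap.range F) i) with hinc
  have : FiniteDimensional ℂ (LinearMap.range FF) :=
    Submodule.finiteDimensional_of_le (S₂ := LinearMap.range inc) (by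
      rintro _ ⟨v, rfl⟩
      exact ⟨fun i => ⟨F (v i), ⟨v i, rfl⟩⟩, rfl⟩)
  have h := (idxIs_id_add_finrank FF).comp (idxIs_equiv (LinearEquiv.piCongrRight fun _ : σ => e))
  rw [add_zero] at h
  convert h using 1
  · rfl
  · refine LinearMap.ext fun v => funext fun i => ?_
    exact hWe (v i)

/-- The shift with which the phase is compared on a line bundle of degree `d`. -/
theorem exists_model (hm : PhaseLike m) (hW : IsMultiplier m W) {d : ℤ} (hd : d = 1 ∨ d = -1) :
    ∃ (S A : TorusL2 →L[ℂ] TorusL2) (k : ℤ), (k = 1 ∨ k = -1) ∧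
      IdxIs (S : TorusL2 →ₗ[ℂ] TorusL2) k ∧ AppFin (S * A - 1) ∧ AppFin (A * S - 1) ∧
      ∀ α : ℂ, AppFin (W.comp (mulOp (etaF d α)) - (mulOp (etaF d α)).comp S) := by
  obtain ⟨R, L, hRb, hLb, hL0, hRidx, hLidx, hRL, hLR⟩ := exists_shift (thBasis hd)
  have key : ∀ (n : ℕ) (k : ℤ × ℤ) (η : Torus → ℂ),
      ⟪chr k, mulOp η ((thBasis hd) n)⟫_ℂ = entry d η k n := fun n k η => by
    rw [coe_thBasis]; rfl
  have hlam : ∀ k : ℤ × ℤ, 2 * Real.pi * Complex.I * zc k =
      2 * Real.pi * Complex.I * k.1 - 2 * Real.pi * (k.2 : ℂ) := by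
    intro k
    simp only [zc, mul_add]
    linear_combination (2 * Real.pi * (k.2 : ℂ)) * Complex.I_mul_I
  have hlam' : ∀ k : ℤ × ℤ, -conj (2 * Real.pi * Complex.I * zc k) =
      2 * Real.pi * Complex.I * k.1 + 2 * Real.pi * (k.2 : ℂ) := by
    intro k
    rw [hlam]
    simp only [map_sub, map_mul, map_ofNat, Complex.conj_ofReal, Complex.conj_I, map_intCast]
    ring
  have hsq : ∀ n : ℕ, Real.sqrt (4 * Real.pi * (n : ℕ)) ^ 2 = 4 * Real.pi * (n : ℝ) := fun n =>
    Real.sq_sqrt (by positivity)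
  have hnat : Tendsto (fun n : ℕ => 4 * Real.pi * (n : ℝ)) cofinite atTop := by
    rw [Nat.cofinite_eq_atTop]
    exact (tendsto_natCast_atTop_atTop).const_mul_atTop (by positivity)
  have hsucc : Tendsto (fun n : ℕ => 4 * Real.pi * ((n + 1 : ℕ) : ℝ)) cofinite atTop :=
    hnat.comp (add_left_injective 1).tendsto_cofinite
  have hlim : ∀ β : ℕ → ℝ, (∀ n, 0 ≤ β n) → Tendsto β cofinite atTop →
      Tendsto (fun n => ((1 - Real.sqrt (β n) / Real.sqrt (1 + β n) : ℝ) : ℂ)) cofinite (𝓝 0) := by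
    intro β hβ hβt
    have ht := (Real.tendsto_sqrt_atTop.comp (tendsto_atTop_add_const_left _ 1 hβt)).inv_tendsto_atTop
    refine squeeze_zero_norm (fun n => ?_) ht
    have hp : 0 < Real.sqrt (1 + β n) := Real.sqrt_pos.2 (by linarith [hβ n])
    have hle : Real.sqrt (β n) ≤ Real.sqrt (1 + β n) := Real.sqrt_le_sqrt (by linarith)
    rw [Complex.norm_real, Real.norm_eq_abs, Pi.inv_apply, Function.comp_apply,
      abs_of_nonneg (by rw [sub_nonneg, div_le_one hp]; exact hle), inv_eq_one_div,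
      sub_le_iff_le_add, ← add_div, le_div_iff₀ hp, one_mul]
    rw [Real.sqrt_le_left (by positivity)]
    nlinarith [Real.sqrt_nonneg (β n), Real.sq_sqrt (hβ n)]
  rcases hd with h1 | h1
  · subst h1
    refine ⟨Complex.I • R, (-Complex.I) • L, -1, Or.inr rfl, ?_, ?_, ?_, fun α => ?_⟩
    · exact hRidx.smul Complex.I_ne_zero
    · rw [smul_mul_smul_comm]; simpa using hRL
    · rw [smul_mul_smul_comm]; simpa using hLR
    · refine appFin_intertwine hm hW (thBasis (d := 1) (Or.inl rfl)) (mulOp (etaF 1 α))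
        (mulOp (dEta 1 (2 * Real.pi) α)) (mulOp (dEta 1 (-(2 * Real.pi)) α)) R
        (fun n => -Real.sqrt (4 * Real.pi * (n + 1 : ℕ))) (fun n => 4 * Real.pi * ((n + 1 : ℕ) : ℝ))
        Complex.I (fun n => by rw [neg_sq]; exact hsq (n + 1)) hsucc ?_ (fun k n => ?_) (fun k n => ?_)
      · have h0 := (hlim _ (fun n => by positivity) hsucc).const_mul (-Complex.I)
        rw [mul_zero] at h0
        refine h0.congr fun n => ?_
        push_cast
        ring
      · rw [hlam, hRb, key, key, key]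
        have := entry_rel_up (d := 1) (Or.inl rfl) α k n
        simp only [one_mul] at this
        simpa using this
      · rw [hlam', hRb, key, key, key]
        have := entry_rel_down (d := 1) (Or.inl rfl) α k (n + 1)
        simp only [one_mul, Nat.add_sub_cancel] at this
        have h2 : ((Real.sqrt (4 * Real.pi * (n + 1 : ℕ)) : ℂ)) ^ 2 =
            ((4 * Real.pi * ((n + 1 : ℕ) : ℝ) : ℝ) : ℂ) := by exact_mod_cast hsq (n + 1)
        push_cast at *
        linear_combination (-(Real.sqrt (4 * Real.pi * ((n : ℝ) + 1)) : ℂ)) * this -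
          entry 1 (etaF 1 α) k n * h2
  · subst h1
    refine ⟨(-Complex.I) • L, Complex.I • R, 1, Or.inl rfl, ?_, ?_, ?_, fun α => ?_⟩
    · exact hLidx.smul (neg_ne_zero.2 Complex.I_ne_zero)
    · rw [smul_mul_smul_comm]; simpa using hLR
    · rw [smul_mul_smul_comm]; simpa using hRL
    · refine appFin_intertwine hm hW (thBasis (d := -1) (Or.inr rfl)) (mulOp (etaF (-1) α))
        (mulOp (dEta (-1) (-(2 * Real.pi)) α)) (mulOp (dEta (-1) (2 * Real.pi) α)) L
        (fun n => Real.sqrt (4 * Real.pi * (n : ℕ))) (fun n => 4 * Real.pi * (n : ℝ))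
        (-Complex.I) (fun n => hsq n) hnat ?_ (fun k n => ?_) (fun k n => ?_)
      · have h0 := (hlim _ (fun n => by positivity) hnat).const_mul Complex.I
        rw [mul_zero] at h0
        refine h0.congr fun n => ?_
        push_cast
        ring
      · rw [hlam, key, key]
        rcases n with _ | j
        · rw [hL0]
          have := entry_rel_down (d := -1) (Or.inr rfl) α k 0
          push_cast at this ⊢
          simp at this ⊢
          linear_combination this
        · rw [hLb, key]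
          have := entry_rel_down (d := -1) (Or.inr rfl) α k (j + 1)
          simp only [Nat.add_sub_cancel] at this
          push_cast at this ⊢
          linear_combination this
      · rw [hlam', key]
        rcases n with _ | j
        · simp
        · rw [hLb, key, key]
          have := entry_rel_up (d := -1) (Or.inr rfl) α k j
          have h2 : ((Real.sqrt (4 * Real.pi * (j + 1 : ℕ)) : ℂ)) ^ 2 =
              ((4 * Real.pi * ((j + 1 : ℕ) : ℝ) : ℝ) : ℂ) := by exact_mod_cast hsq (j + 1)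
          push_cast at *
          linear_combination (Real.sqrt (4 * Real.pi * ((j : ℝ) + 1)) : ℂ) * this -
            entry (-1) (etaF (-1) α) k (j + 1) * h2

end TorIdx
end VP212
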