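import Vale.Agent.P212.Index.Mult
import Vale.Agent.P212.Index.Hermite

/-!
P212 item 9: theta series, the sections over the torus and their Hilbert basis.
-/

open scoped InnerProductSpace
open MeasureTheory Filter Topology ComplexConjugate

namespace VP212
namespace TorIdx

/-- Continuous functions of exponential decay. -/
def Dec (f : ℝ → ℂ) : Prop :=
  Continuous f ∧ ∃ C : ℝ, 0 ≤ C ∧ ∀ x, ‖f x‖ ≤ C * Real.exp (-|x|)

theorem Dec.add {f g : ℝ → ℂ} (hf : Dec f) (hg : Dec g) : Dec fun x => f x + g x := by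
  obtain ⟨hc, C, hC0, hC⟩ := hf
  obtain ⟨hc', D, hD0, hD⟩ := hg
  refine ⟨hc.add hc', C + D, by positivity, fun x => ?_⟩
  calc ‖f x + g x‖ ≤ ‖f x‖ + ‖g x‖ := norm_add_le _ _
    _ ≤ _ := by rw [add_mul]; exact add_le_add (hC x) (hD x)

theorem Dec.const_mul {f : ℝ → ℂ} (hf : Dec f) (c : ℂ) : Dec fun x => c * f x := by
  obtain ⟨hc, C, hC0, hC⟩ := hf
  refine ⟨continuous_const.mul hc, ‖c‖ * C, by positivity, fun x => ?_⟩
  rw [norm_mul, mul_assoc]
  exact mul_le_mul_of_nonneg_left (hC x) (norm_nonneg _)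

theorem Dec.zero : Dec fun _ => (0 : ℂ) := ⟨continuous_const, 0, le_rfl, fun x => by simp⟩

theorem Dec.sum {α : Type*} (s : Finset α) {f : α → ℝ → ℂ} (hf : ∀ a ∈ s, Dec (f a)) :
    Dec fun x => ∑ a ∈ s, f a x := by
  classical
  induction s using Finset.induction with
  | empty => simpa using Dec.zero
  | insert a s ha ih =>
      simp only [Finset.sum_insert ha]
      exact (hf a (Finset.mem_insert_self a s)).add
        (ih fun b hb => hf b (Finset.mem_insert_of_mem hb))

theorem dec_phi (n : ℕ) : Dec (phi n) := by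
  obtain ⟨C, hC0, hC⟩ := psi_le n
  refine ⟨continuous_phi n, C / Real.sqrt (nrm2 n), by positivity, fun x => ?_⟩
  rw [phi, Complex.norm_real, Real.norm_eq_abs, abs_div, abs_of_nonneg (Real.sqrt_nonneg _),
    div_mul_eq_mul_div]
  exact div_le_div_of_nonneg_right (hC x) (Real.sqrt_nonneg _)

theorem dec_gauss_poly (p : Polynomial ℝ) : Dec fun x => ((p.eval x * gs x : ℝ) : ℂ) := by
  obtain ⟨C, hC0, hC⟩ := poly_gauss_le p
  refine ⟨Complex.continuous_ofReal.comp (p.continuous.mul continuous_gs), C, hC0, fun x => ?_⟩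
  rw [Complex.norm_real, Real.norm_eq_abs, abs_mul, abs_of_pos (gs_pos x)]
  exact hC x

/-- The bound on the `l`-th term of a theta series. -/
noncomputable def wl (l : ℤ) : ℝ := Real.exp 1 * Real.exp (-|(l : ℝ)|)

theorem summable_wl : Summable wl := by
  refine Summable.mul_left _ (Summable.of_nat_of_neg ?_ ?_)
  all_goals
    refine (summable_geometric_of_lt_one (Real.exp_nonneg (-1))
      (Real.exp_lt_one_iff.2 (by norm_num))).congr fun n => ?_
    rw [← Real.exp_nat_mul]
    simp

theorem wl_nonneg (l : ℤ) : 0 ≤ wl l := by unfold wl; positivity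

theorem exp_shift_le (s : ℝ) (hs : s ∈ Set.Icc (0 : ℝ) 1) (l : ℤ) :
    Real.exp (-|s + l|) ≤ wl l := by
  rw [wl, ← Real.exp_add]
  refine Real.exp_le_exp.2 ?_
  have h := abs_sub_abs_le_abs_sub (l : ℝ) (-s)
  rw [abs_neg, abs_of_nonneg hs.1, sub_neg_eq_add, add_comm] at h
  linarith [hs.2]

/-- The `l`-th term of a theta series. -/
noncomputable def vterm (d : ℤ) (f : ℝ → ℂ) (l : ℤ) (x : Torus) : ℂ :=
  f (rep x.1 + l) * fourier (d * l) x.2

/-- The theta series of a function. -/
noncomputable def theta (d : ℤ) (f : ℝ → ℂ) (x : Torus) : ℂ := ∑' l, vterm d f l x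

theorem vterm_norm_le {f : ℝ → ℂ} {C : ℝ} (hC0 : 0 ≤ C)
    (hC : ∀ x, ‖f x‖ ≤ C * Real.exp (-|x|)) (d l : ℤ) (x : Torus) :
    ‖vterm d f l x‖ ≤ C * wl l := by
  rw [vterm, norm_mul, fourier_apply, Circle.norm_coe, mul_one]
  exact (hC _).trans (mul_le_mul_of_nonneg_left (exp_shift_le _ (rep_mem_Icc _) _) hC0)

theorem measurable_vterm {f : ℝ → ℂ} (hf : Continuous f) (d l : ℤ) :
    Measurable (vterm d f l) :=
  (hf.measurable.comp ((measurable_rep.comp measurable_fst).add_const _)).mul
    ((fourier (d * l)).continuous.measurable.comp measurable_snd)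

theorem bm_vterm {f : ℝ → ℂ} (hf : Dec f) (d l : ℤ) : BM (vterm d f l) := by
  obtain ⟨hc, C, hC0, hC⟩ := hf
  exact ⟨measurable_vterm hc d l, C * wl l, vterm_norm_le hC0 hC d l⟩

theorem summable_vterm {f : ℝ → ℂ} (hf : Dec f) (d : ℤ) (x : Torus) :
    Summable fun l => vterm d f l x := by
  obtain ⟨hc, C, hC0, hC⟩ := hf
  exact Summable.of_norm_bounded (summable_wl.mul_left C) fun l => vterm_norm_le hC0 hC d l x

theorem theta_norm_le {f : ℝ → ℂ} {C : ℝ} (hC0 : 0 ≤ C)
    (hC : ∀ x, ‖f x‖ ≤ C * Real.exp (-|x|)) (d : ℤ) (x : Torus) :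
    ‖theta d f x‖ ≤ C * ∑' l, wl l :=
  tsum_of_norm_bounded (summable_wl.hasSum.mul_left C) fun l => vterm_norm_le hC0 hC d l x

theorem bm_theta {f : ℝ → ℂ} (hf : Dec f) (d : ℤ) : BM (theta d f) := by
  refine ⟨measurable_of_tendsto_metrizable' (u := (atTop : Filter (Finset ℤ)))
    (fun S => Finset.measurable_fun_sum S fun l _ => measurable_vterm hf.1 d l)
    (tendsto_pi_nhds.2 fun x => (summable_vterm hf d x).hasSum), ?_⟩
  obtain ⟨hc, C, hC0, hC⟩ := hf
  exact ⟨_, theta_norm_le hC0 hC d⟩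

theorem hasSum_mulOp_vterm {f : ℝ → ℂ} (hf : Dec f) (d : ℤ) :
    HasSum (fun l => mulOp (vterm d f l)) (mulOp (theta d f)) := by
  obtain ⟨hc, C, hC0, hC⟩ := id hf
  refine tendsto_iff_norm_sub_tendsto_zero.2 (squeeze_zero (fun _ => norm_nonneg _) (fun S => ?_)
    (tendsto_tsum_compl_atTop_zero fun l => C * wl l))
  have hS : BM fun x => ∑ l ∈ S, vterm d f l x := BM.sum S fun l _ => bm_vterm hf d l
  rw [norm_sub_rev, ← mulOp_sum S fun l _ => bm_vterm hf d l, ← mulOp_sub (bm_theta hf d) hS]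
  refine mulOp_norm_le ?_ (tsum_nonneg fun l => mul_nonneg hC0 (wl_nonneg _)) fun x => ?_
  · simpa [sub_eq_add_neg] using (bm_theta hf d).add ((BM.const (-1)).mul hS)
  · rw [theta, ← (summable_vterm hf d x).sum_add_tsum_compl (s := S), add_sub_cancel_left]
    exact tsum_of_norm_bounded ((summable_wl.mul_left C).subtype _).hasSum
      fun l => vterm_norm_le hC0 hC d l x

/-- The vector of a theta series. -/
noncomputable def thVec (d : ℤ) (f : ℝ → ℂ) : TorusL2 := mulOp (theta d f) one2

theorem hasSum_inner_thVec {f : ℝ → ℂ} (hf : Dec f) (d : ℤ) (u : TorusL2) :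
    HasSum (fun l => ⟪u, mulOp (vterm d f l) one2⟫_ℂ) ⟪u, thVec d f⟫_ℂ :=
  ((hasSum_mulOp_vterm hf d).mapL (ContinuousLinearMap.apply ℂ TorusL2 one2)).mapL (innerSL ℂ u)

theorem sq_sign {d : ℤ} (hd : d = 1 ∨ d = -1) : d * d = 1 := by rcases hd with rfl | rfl <;> rfl

theorem inner_vterm {f g : ℝ → ℂ} (hf : Dec f) (hg : Dec g) {d : ℤ} (hd : d = 1 ∨ d = -1)
    (l j : ℤ) :
    ⟪mulOp (vterm d f l) one2, mulOp (vterm d g j) one2⟫_ℂ =
      if l = j then ∫ s in (0 : ℝ)..1, conj (f (s + l)) * g (s + j) else 0 := by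
  rw [inner_mulOp_one2 (bm_vterm hf d l) (bm_vterm hg d j)]
  have h : (fun x : Torus => conj (vterm d f l x) * vterm d g j x) = fun x =>
      (fun s => conj (f (s + l)) * g (s + j)) (rep x.1) * fourier (d * (j - l)) x.2 := by
    funext x
    simp only [vterm, map_mul]
    rw [← fourier_neg, show d * (j - l) = -(d * l) + d * j by ring, fourier_add]
    ring
  rw [h, integral_rep_mul (fun s => conj (f (s + l)) * g (s + j))]
  refine if_congr ?_ rfl rfl
  constructor
  · intro h0
    rcases hd with rfl | rfl <;> omega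
  · rintro rfl; simp

theorem inner_thVec {f g : ℝ → ℂ} (hf : Dec f) (hg : Dec g) {d : ℤ} (hd : d = 1 ∨ d = -1) :
    ⟪thVec d f, thVec d g⟫_ℂ = ∫ x, conj (f x) * g x := by
  have h1 : ∀ j, ⟪thVec d f, mulOp (vterm d g j) one2⟫_ℂ =
      ∫ s in (0 : ℝ)..1, conj (f (s + j)) * g (s + j) := by
    intro j
    have h := hasSum_inner_thVec hf d (mulOp (vterm d g j) one2)
    simp only [inner_vterm hg hf hd] at h
    have hv := h.unique (hasSum_single j fun l hl => if_neg (Ne.symm hl))
    rw [if_pos rfl] at hv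
    rw [← inner_conj_symm, hv, ← intervalIntegral.intervalIntegral_conj]
    simp only [map_mul, Complex.conj_conj]
    simp only [mul_comm]
  have h2 := hasSum_inner_thVec hg d (thVec d f)
  simp only [h1] at h2
  obtain ⟨hcf, C, hC0, hC⟩ := hf
  obtain ⟨hcg, D, hD0, hD⟩ := hg
  have hint : Integrable fun x => conj (f x) * g x := by
    refine (integrable_exp_neg_abs.const_mul (C * D)).mono'
      ((Complex.continuous_conj.comp hcf).mul hcg).aestronglyMeasurable
      (Eventually.of_forall fun x => ?_)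
    rw [norm_mul, Complex.norm_conj]
    calc ‖f x‖ * ‖g x‖ ≤ (C * Real.exp (-|x|)) * (D * Real.exp (-|x|)) :=
          mul_le_mul (hC x) (hD x) (norm_nonneg _) (by positivity)
      _ = C * D * Real.exp (-|x|) * Real.exp (-|x|) := by ring
      _ ≤ C * D * Real.exp (-|x|) :=
          mul_le_of_le_one_right (by positivity)
            (Real.exp_le_one_iff.2 (by linarith [abs_nonneg x]))
  refine h2.unique ?_
  have h3 := hint.hasSum_intervalIntegral 0
  simp only [zero_add] at h3
  refine h3.congr_fun fun j => ?_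
  rw [intervalIntegral.integral_comp_add_right (fun x => conj (f x) * g x), zero_add, add_comm]

theorem orthonormal_thVec {d : ℤ} (hd : d = 1 ∨ d = -1) :
    Orthonormal ℂ fun n => thVec d (phi n) := by
  rw [orthonormal_iff_ite]
  intro m n
  rw [inner_thVec (dec_phi m) (dec_phi n) hd, phi_integral]

/-- The entries of the multiplication by a frame component, applied to a theta vector. -/
theorem inner_chr_frame {a b : ℝ → ℂ} (ha : Continuous a) (hb : Continuous b) {f : ℝ → ℂ}
    (hf : Dec f) {d : ℤ} (hd : d = 1 ∨ d = -1) (k : ℤ × ℤ)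
    (hbm : BM fun x => a (rep x.1) + b (rep x.1) * fourier d x.2) :
    ⟪chr k, mulOp (fun x => a (rep x.1) + b (rep x.1) * fourier d x.2) (thVec d f)⟫_ℂ =
      ∫ s in (0 : ℝ)..1, fourier (-k.1) (s : UnitAddCircle) *
        (a s * f (s + (d * k.2 : ℤ)) + b s * f (s + ((d * k.2 - 1 : ℤ) : ℝ))) := by
  set η := fun x : Torus => a (rep x.1) + b (rep x.1) * fourier d x.2 with hη
  rw [← mulOp_conj_eq_adjoint hbm]
  have h := hasSum_inner_thVec hf d (mulOp (fun x => conj (η x)) (chr k))
  set Fa : ℤ → ℝ → ℂ := fun l s => fourier (-k.1) (s : UnitAddCircle) * (a s * f (s + l))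
  set Fb : ℤ → ℝ → ℂ := fun l s => fourier (-k.1) (s : UnitAddCircle) * (b s * f (s + l))
  have hterm : ∀ l : ℤ, ⟪mulOp (fun x => conj (η x)) (chr k), mulOp (vterm d f l) one2⟫_ℂ =
      (if l = d * k.2 then ∫ s in (0 : ℝ)..1, Fa l s else 0) +
      (if l = d * k.2 - 1 then ∫ s in (0 : ℝ)..1, Fb l s else 0) := by
    intro l
    rw [chr_eq_mulOp, mulOp_apply_comp hbm.conj (bm_cm _),
      inner_mulOp_one2 (hbm.conj.mul (bm_cm _)) (bm_vterm hf d l)]
    have e : (fun x : Torus => conj (conj (η x) * charC k x) * vterm d f l x) = fun x =>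
        Fa l (rep x.1) * fourier (d * l - k.2) x.2 +
          Fb l (rep x.1) * fourier (d * l + d - k.2) x.2 := by
      funext x
      simp only [hη, vterm, map_mul, Complex.conj_conj, charC_apply, ← fourier_neg, Fa, Fb,
        coe_rep, sub_eq_add_neg, fourier_add]
      ring
    have hi : ∀ (F : ℝ → ℂ) (j : ℤ), Continuous F →
        Integrable fun x : Torus => F (rep x.1) * fourier j x.2 := by
      intro F j hF
      obtain ⟨C, hC⟩ := (isCompact_Icc (a := (0 : ℝ)) (b := 1)).exists_bound_of_continuousOn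
        hF.continuousOn
      have hb' : BM fun x : Torus => F (rep x.1) * fourier j x.2 :=
        ⟨(hF.measurable.comp (measurable_rep.comp measurable_fst)).mul
          ((fourier j).continuous.measurable.comp measurable_snd), C,
          fun x => by
            rw [norm_mul, fourier_apply, Circle.norm_coe, mul_one]
            exact hC _ (rep_mem_Icc _)⟩
      exact memLp_one_iff_integrable.1 (hb'.memLp 1)
    have hfc := hf.1
    rw [e, integral_add (hi (Fa l) _ (by fun_prop)) (hi (Fb l) _ (by fun_prop)),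
      integral_rep_mul (Fa l), integral_rep_mul (Fb l)]
    congr 1 <;>
      · refine if_congr ?_ rfl rfl
        rcases hd with rfl | rfl <;> constructor <;> intro h <;> linarith
  simp only [hterm] at h
  rw [h.unique ((hasSum_ite_eq _ _).congr_fun (fun l => ?_) |>.add
    ((hasSum_ite_eq (d * k.2 - 1) (∫ s in (0 : ℝ)..1, Fb (d * k.2 - 1) s)).congr_fun fun l => ?_))]
  rotate_left
  · exact ∫ s in (0 : ℝ)..1, Fa (d * k.2) s
  · exact d * k.2
  · split_ifs with h <;> simp [h]
  · split_ifs with h <;> simp [h]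
  have hfc := hf.1
  have c1 : Continuous (Fa (d * k.2)) := by simp only [Fa]; fun_prop
  have c2 : Continuous (Fb (d * k.2 - 1)) := by simp only [Fb]; fun_prop
  rw [← intervalIntegral.integral_add (c1.intervalIntegrable _ _) (c2.intervalIntegrable _ _)]
  refine intervalIntegral.integral_congr fun s _ => ?_
  simp only [Fa, Fb]
  ring

/-- The Gaussian times an exponential. -/
noncomputable def gexp (τ : ℂ) (x : ℝ) : ℂ := (gs x : ℂ) * Complex.exp (τ * x)

theorem dec_gexp (τ : ℂ) : Dec (gexp τ) := by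
  obtain ⟨C, hC0, hC⟩ := gauss_exp_le ‖τ‖
  refine ⟨?_, C, hC0, fun x => ?_⟩
  · have := continuous_gs; unfold gexp; fun_prop
  rw [gexp, norm_mul, Complex.norm_real, Real.norm_eq_abs, abs_of_pos (gs_pos x)]
  refine le_trans (mul_le_mul_of_nonneg_left ?_ (gs_pos x).le) (hC x)
  refine (Complex.norm_exp_le_exp_norm _).trans (le_of_eq ?_)
  rw [norm_mul, Complex.norm_real, Real.norm_eq_abs]

/-- The terms of the exponential series. -/
noncomputable def gpow (τ : ℂ) (j : ℕ) (x : ℝ) : ℂ :=
  (τ ^ j / (j.factorial : ℂ)) * (((Polynomial.X ^ j).eval x * gs x : ℝ) : ℂ)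

theorem exp_tail_le (z : ℂ) (N : ℕ) :
    ‖Complex.exp z - ∑ m ∈ Finset.range N, z ^ m / (m.factorial : ℂ)‖ ≤
      (1 / 2) ^ N * Real.exp (2 * ‖z‖) := by
  have hs : HasSum (fun m : ℕ => z ^ m / (m.factorial : ℂ)) (Complex.exp z) := by
    rw [Complex.exp_eq_exp_ℂ]; exact NormedSpace.expSeries_div_hasSum_exp z
  have hr : HasSum (fun m : ℕ => (2 * ‖z‖) ^ m / (m.factorial : ℝ)) (Real.exp (2 * ‖z‖)) := by
    rw [Real.exp_eq_exp_ℝ]; exact NormedSpace.expSeries_div_hasSum_exp (2 * ‖z‖)
  rw [← hs.tsum_eq, ← hs.summable.sum_add_tsum_nat_add N, add_sub_cancel_left]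
  have hsr := (summable_nat_add_iff N).2 hr.summable
  refine (tsum_of_norm_bounded ((hsr.hasSum).mul_left ((1 / 2 : ℝ) ^ N)) fun m => ?_).trans
    (mul_le_mul_of_nonneg_left ?_ (by positivity))
  · rw [norm_div, norm_pow, Complex.norm_natCast, mul_pow, ← mul_div_assoc]
    refine div_le_div_of_nonneg_right ?_ (by positivity)
    rw [← mul_assoc, pow_add (2 : ℝ) m N, mul_comm ((2 : ℝ) ^ m) _, ← mul_assoc, ← mul_pow]
    norm_num
    exact le_mul_of_one_le_left (by positivity) (one_le_pow₀ one_le_two)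
  · rw [← hr.tsum_eq, ← hr.summable.sum_add_tsum_nat_add N]
    exact le_add_of_nonneg_left (Finset.sum_nonneg fun i _ => by positivity)

theorem charC_mul_theta {f : ℝ → ℂ} {d : ℤ} (hd : d = 1 ∨ d = -1) (k : ℤ × ℤ) (x : Torus) :
    charC k x * theta d f x = theta d
      (fun y => fourier k.1 (y : UnitAddCircle) * f (y - (d * k.2 : ℤ))) x := by
  rw [theta, theta, ← tsum_mul_left, ← (Equiv.addRight (d * k.2)).tsum_eq
    (f := fun l => vterm d (fun y => fourier k.1 (y : UnitAddCircle) * f (y - (d * k.2 : ℤ))) l x)]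
  refine tsum_congr fun l => ?_
  have h1 : (((rep x.1 + ((l + d * k.2 : ℤ) : ℝ)) : ℝ) : UnitAddCircle) = x.1 := by
    rw [AddCircle.coe_add, coe_rep,
      (AddCircle.coe_eq_zero_iff (1 : ℝ)).2 ⟨l + d * k.2, by simp⟩, add_zero]
  simp only [vterm, charC_apply, Equiv.coe_addRight, h1]
  rw [show d * (l + d * k.2) = d * l + (d * d) * k.2 by ring, sq_sign hd, one_mul, fourier_add,
    show rep x.1 + ((l + d * k.2 : ℤ) : ℝ) - ((d * k.2 : ℤ) : ℝ) = rep x.1 + l by push_cast; ring]
  ring

theorem gexp_shift (τ : ℂ) (j m : ℤ) :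
    (fun y : ℝ => fourier j (y : UnitAddCircle) * gexp τ (y - m)) = fun y =>
      Complex.exp (-(Real.pi * (m : ℂ) ^ 2) - τ * m) *
        gexp (τ + 2 * Real.pi * Complex.I * j + 2 * Real.pi * m) y := by
  funext y
  rw [fourier_coe_apply, gexp, gexp, gs, gs, Complex.ofReal_exp, Complex.ofReal_exp]
  simp only [← Complex.exp_add]
  congr 1
  push_cast
  ring

theorem inner_thVec_add {f h : ℝ → ℂ} (hf : Dec f) (hh : Dec h) (d : ℤ) (u : TorusL2) :
    ⟪u, thVec d (fun x => f x + h x)⟫_ℂ = ⟪u, thVec d f⟫_ℂ + ⟪u, thVec d h⟫_ℂ := by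
  refine (hasSum_inner_thVec (hf.add hh) d u).unique
    (((hasSum_inner_thVec hf d u).add (hasSum_inner_thVec hh d u)).congr_fun fun l => ?_)
  rw [show vterm d (fun x => f x + h x) l = fun x => vterm d f l x + vterm d h l x from
    funext fun x => by simp only [vterm]; ring,
    mulOp_add (bm_vterm hf d l) (bm_vterm hh d l), add_apply, inner_add_right]

theorem inner_thVec_smul {f : ℝ → ℂ} (hf : Dec f) (c : ℂ) (d : ℤ) (u : TorusL2) :
    ⟪u, thVec d (fun x => c * f x)⟫_ℂ = c * ⟪u, thVec d f⟫_ℂ := by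
  refine (hasSum_inner_thVec (hf.const_mul c) d u).unique
    (((hasSum_inner_thVec hf d u).mul_left c).congr_fun fun l => ?_)
  rw [show vterm d (fun x => c * f x) l = fun x => c * vterm d f l x from
    funext fun x => by simp only [vterm]; ring,
    mulOp_smul (bm_vterm hf d l), smul_apply, inner_smul_right]

theorem inner_thVec_le {f : ℝ → ℂ} {C : ℝ} (hf : Dec f) (hC0 : 0 ≤ C)
    (hC : ∀ x, ‖f x‖ ≤ C * Real.exp (-|x|)) (d : ℤ) (u : TorusL2) :
    ‖⟪u, thVec d f⟫_ℂ‖ ≤ ‖u‖ * (C * (∑' l, wl l) * ‖one2‖) :=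
  (norm_inner_le_norm _ _).trans (mul_le_mul_of_nonneg_left
    ((ContinuousLinearMap.le_opNorm _ _).trans (mul_le_mul_of_nonneg_right
      (mulOp_norm_le (bm_theta hf d) (mul_nonneg hC0 (tsum_nonneg wl_nonneg))
        (theta_norm_le hC0 hC d)) (norm_nonneg _))) (norm_nonneg _))

theorem thVec_gexp_orth {d : ℤ} {g : TorusL2} (hg : ∀ n, ⟪g, thVec d (phi n)⟫_ℂ = 0) (τ : ℂ) :
    ⟪g, thVec d (gexp τ)⟫_ℂ = 0 := by
  set D := fun (j n : ℕ) (x : ℝ) => (((Polynomial.X ^ j * hp n).eval x * gs x : ℝ) : ℂ) with hD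
  have hpoly : ∀ j n : ℕ, ⟪g, thVec d (D j n)⟫_ℂ = 0 := by
    intro j
    induction j with
    | zero =>
        intro n
        have e : D 0 n = fun x => (Real.sqrt (nrm2 n) : ℂ) * phi n x := by
          rw [← psi_eq_phi]; funext x; simp [hD, psi]
        rw [e, inner_thVec_smul (dec_phi n), hg, mul_zero]
    | succ j ih =>
        intro n
        have hp4 : (4 * Real.pi : ℂ) ≠ 0 := by simp [Real.pi_ne_zero]
        rcases n with _ | i
        · have e : D (j + 1) 0 = fun x => ((4 * Real.pi : ℂ))⁻¹ * D j 1 x := by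
            funext x
            have := congrArg (fun r : ℝ => (x ^ j * r : ℝ)) (psi_zero_eq x)
            simp only [hD, Polynomial.eval_mul, Polynomial.eval_pow, Polynomial.eval_X]
            simp only [psi] at this
            rw [eq_inv_mul_iff_mul_eq₀ hp4]
            norm_cast
            rw [pow_succ]
            linear_combination this
          rw [e, inner_thVec_smul (f := D j 1) (dec_gauss_poly _), ih, mul_zero]
        · have e : D (j + 1) (i + 1) = fun x => ((4 * Real.pi : ℂ))⁻¹ *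
              (D j (i + 2) x + (((4 * Real.pi * (i + 1 : ℕ) : ℝ)) : ℂ) * D j i x) := by
            funext x
            have := congrArg (fun r : ℝ => (x ^ j * r : ℝ)) (psi_succ_eq i x)
            simp only [hD, Polynomial.eval_mul, Polynomial.eval_pow, Polynomial.eval_X]
            simp only [psi] at this
            rw [eq_inv_mul_iff_mul_eq₀ hp4]
            norm_cast
            rw [pow_succ]
            push_cast at *
            linear_combination this
          have h1 : Dec (D j (i + 2)) := dec_gauss_poly _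
          have h2 : Dec fun x => (((4 * Real.pi * (i + 1 : ℕ) : ℝ)) : ℂ) * D j i x :=
            (show Dec (D j i) from dec_gauss_poly _).const_mul _
          rw [e, inner_thVec_smul (h1.add h2), inner_thVec_add h1 h2,
            inner_thVec_smul (f := D j i) (dec_gauss_poly _), ih, ih, mul_zero, add_zero, mul_zero]
  have hgpow : ∀ j, Dec (gpow τ j) := fun j => (dec_gauss_poly _).const_mul _
  have hpart : ∀ N, ⟪g, thVec d (fun x => ∑ j ∈ Finset.range N, gpow τ j x)⟫_ℂ = 0 := by
    intro N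
    induction N with
    | zero =>
        have := inner_thVec_smul Dec.zero 0 d g
        simpa using this
    | succ N ih =>
        simp only [Finset.sum_range_succ]
        rw [inner_thVec_add (Dec.sum _ fun j _ => hgpow j) (hgpow N), ih, zero_add]
        have e : gpow τ N = fun x => (τ ^ N / (N.factorial : ℂ)) * D N 0 x := by
          funext x; simp [gpow, hD, hp]
        rw [e, inner_thVec_smul (f := D N 0) (dec_gauss_poly _), hpoly, mul_zero]
  obtain ⟨C, hC0, hC⟩ := gauss_exp_le (2 * ‖τ‖)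
  set K := ‖g‖ * ((∑' l, wl l) * ‖one2‖) with hK
  have hb : ∀ N, ‖⟪g, thVec d (gexp τ)⟫_ℂ‖ ≤ (1 / 2) ^ N * C * K := by
    intro N
    have hsum : Dec (fun x => ∑ j ∈ Finset.range N, gpow τ j x) := Dec.sum _ fun j _ => hgpow j
    have hdiff : Dec fun x => gexp τ x + (-1) * ∑ j ∈ Finset.range N, gpow τ j x :=
      (dec_gexp τ).add (hsum.const_mul _)
    have h := inner_thVec_le (C := (1 / 2) ^ N * C) hdiff (by positivity) (fun x => ?_) d g
    · rw [inner_thVec_add (dec_gexp τ) (hsum.const_mul _), inner_thVec_smul hsum, hpart,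
        mul_zero, add_zero] at h
      exact h.trans (le_of_eq (by rw [hK]; ring))
    · have e : gexp τ x + (-1) * ∑ j ∈ Finset.range N, gpow τ j x = (gs x : ℂ) *
          (Complex.exp (τ * x) - ∑ m ∈ Finset.range N, (τ * x) ^ m / (m.factorial : ℂ)) := by
        rw [mul_sub, neg_one_mul, ← sub_eq_add_neg, gexp, Finset.mul_sum]
        congr 1
        refine Finset.sum_congr rfl fun m _ => ?_
        simp only [gpow, Polynomial.eval_pow, Polynomial.eval_X]
        push_cast
        ring
      rw [e, norm_mul, Complex.norm_real, Real.norm_eq_abs, abs_of_pos (gs_pos x)]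
      refine (mul_le_mul_of_nonneg_left (exp_tail_le _ N) (gs_pos x).le).trans ?_
      rw [norm_mul, Complex.norm_real, Real.norm_eq_abs, mul_assoc ((1 / 2 : ℝ) ^ N) C, ← mul_assoc,
        mul_comm (gs x), mul_assoc, ← mul_assoc 2 ‖τ‖]
      exact mul_le_mul_of_nonneg_left (hC x) (by positivity)
  have hlim : Tendsto (fun N : ℕ => (1 / 2 : ℝ) ^ N * C * K) atTop (𝓝 0) := by
    simpa using ((tendsto_pow_atTop_nhds_zero_of_lt_one (by norm_num : (0 : ℝ) ≤ 1 / 2)
      (by norm_num)).mul_const C).mul_const K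
  exact norm_le_zero_iff.1 (ge_of_tendsto' hlim hb)

theorem conj_theta_mul {d : ℤ} (hd : d = 1 ∨ d = -1) {g : TorusL2}
    (hg : ∀ τ, ⟪g, thVec d (gexp τ)⟫_ℂ = 0) (τ : ℂ) :
    mulOp (fun x => conj (theta d (gexp τ) x)) g = 0 := by
  refine chrBasis.repr.injective ?_
  ext k
  rw [HilbertBasis.repr_apply_apply, HilbertBasis.repr_apply_apply, inner_zero_right, coe_chrBasis,
    ← inner_mulOp_left (bm_theta (dec_gexp τ) d), chr_eq_mulOp,
    mulOp_apply_comp (bm_theta (dec_gexp τ) d) (bm_cm _), ← inner_conj_symm]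
  have e : (fun x => theta d (gexp τ) x * charC k x) = theta d
      (fun y => Complex.exp (-(Real.pi * ((d * k.2 : ℤ) : ℂ) ^ 2) - τ * (d * k.2 : ℤ)) *
        gexp (τ + 2 * Real.pi * Complex.I * k.1 + 2 * Real.pi * (d * k.2 : ℤ)) y) := by
    funext x
    rw [mul_comm, charC_mul_theta hd, gexp_shift]
  rw [e, ← thVec, inner_thVec_smul (dec_gexp _), hg, mul_zero, map_zero]

theorem thVec_complete {d : ℤ} (hd : d = 1 ∨ d = -1) {g : TorusL2}
    (hg : ∀ n, ⟪g, thVec d (phi n)⟫_ℂ = 0) : g = 0 := by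
  have hθ := conj_theta_mul hd (thVec_gexp_orth hg)
  set f0 := gexp 0 with hf0
  obtain ⟨hc, C, hC0, hC⟩ := dec_gexp 0
  set A : ℕ → Torus → ℂ := fun N x => ∑ j ∈ Finset.range N, ((N : ℂ)⁻¹ *
    Complex.exp (2 * Real.pi * Complex.I * (j / N : ℂ) * rep x.1)) *
      conj (theta d (gexp (2 * Real.pi * Complex.I * (j / N : ℂ))) x) with hA
  have hcoef : ∀ (N j : ℕ), BM fun x : Torus => (N : ℂ)⁻¹ *
      Complex.exp (2 * Real.pi * Complex.I * (j / N : ℂ) * rep x.1) := fun N j =>
    ⟨measurable_const.mul (Complex.continuous_exp.measurable.comp (measurable_const.mul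
      (Complex.continuous_ofReal.measurable.comp (measurable_rep.comp measurable_fst)))),
      ‖(N : ℂ)⁻¹‖, fun x => by
        rw [norm_mul, Complex.norm_exp]
        simp⟩
  have hAbm : ∀ N, BM (A N) := fun N => BM.sum _ fun j _ =>
    (hcoef N j).mul (bm_theta (dec_gexp _) d).conj
  have hA0 : ∀ N, mulOp (A N) g = 0 := by
    intro N
    simp only [hA]
    rw [mulOp_sum _ fun j _ => (hcoef N j).mul (bm_theta (dec_gexp _) d).conj, sum_apply]
    refine Finset.sum_eq_zero fun j _ => ?_
    rw [← mulOp_apply_comp (hcoef N j) (bm_theta (dec_gexp _) d).conj, hθ, map_zero]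
  set c : ℕ → ℤ → ℝ := fun N l => if l ≠ 0 ∧ (N : ℤ) ∣ l then C * wl l else 0 with hc'
  have hsc : ∀ N, Summable (c N) := fun N =>
    Summable.of_nonneg_of_le (fun l => by simp only [hc']; split_ifs <;> simp [mul_nonneg, hC0,
      wl_nonneg]) (fun l => by simp only [hc']; split_ifs <;> simp [mul_nonneg, hC0, wl_nonneg])
      (summable_wl.mul_left C)
  have hroot : ∀ (N : ℕ), 0 < N → ∀ l : ℤ, (∑ j ∈ Finset.range N, (N : ℂ)⁻¹ *
      Complex.exp (-(2 * Real.pi * Complex.I * (l / N : ℂ))) ^ j) =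
        if (N : ℤ) ∣ l then 1 else 0 := by
    intro N hN l
    rw [← Finset.mul_sum]
    have hN' : (N : ℂ) ≠ 0 := Nat.cast_ne_zero.2 hN.ne'
    have hiff : Complex.exp (-(2 * Real.pi * Complex.I * (l / N : ℂ))) = 1 ↔ (N : ℤ) ∣ l := by
      rw [Complex.exp_eq_one_iff]
      constructor
      · rintro ⟨n, hn⟩
        refine ⟨-n, ?_⟩
        have h0 : (2 * Real.pi * Complex.I : ℂ) ≠ 0 := by simp [Real.pi_ne_zero]
        have h1 : -((l : ℂ) / N) = n := mul_left_cancel₀ h0 (by linear_combination hn)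
        have : (l : ℂ) = ((N * -n : ℤ) : ℂ) := by
          push_cast; rw [← h1, neg_neg, mul_div_cancel₀ _ hN']
        exact_mod_cast this
      · rintro ⟨n, rfl⟩
        refine ⟨-n, ?_⟩
        push_cast
        field_simp
    split_ifs with h
    · simp [hiff.2 h, hN']
    · rw [geom_sum_eq (fun h' => h (hiff.1 h')), ← Complex.exp_nat_mul,
        Complex.exp_eq_one_iff.2 ⟨-l, by push_cast; field_simp⟩]
      simp
  have hdiff : ∀ N : ℕ, 0 < N → ∀ x,
      ‖A N x - conj (vterm d f0 0 x)‖ ≤ ∑' l, c N l := by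
    intro N hN x
    set w : ℤ → ℂ := fun l => (if (N : ℤ) ∣ l then 1 else 0) * conj (vterm d f0 l x) with hw
    have hAx : HasSum w (A N x) := by
      have hj : ∀ j : ℕ, HasSum (fun l : ℤ => (N : ℂ)⁻¹ *
          Complex.exp (-(2 * Real.pi * Complex.I * (l / N : ℂ))) ^ j * conj (vterm d f0 l x))
          (((N : ℂ)⁻¹ * Complex.exp (2 * Real.pi * Complex.I * (j / N : ℂ) * rep x.1)) *
            conj (theta d (gexp (2 * Real.pi * Complex.I * (j / N : ℂ))) x)) := by
        intro j
        refine ((Complex.hasSum_conj'.2 (summable_vterm (dec_gexp _) d x).hasSum).mul_left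
          _).congr_fun fun l => ?_
        simp only [vterm, hf0, gexp, map_mul, ← Complex.exp_conj, ← Complex.exp_nat_mul,
          Complex.conj_ofReal, Complex.conj_I, map_ofNat, map_div₀, map_natCast, zero_mul,
          Complex.exp_zero, mul_one]
        have : Complex.exp (↑j * -(2 * ↑Real.pi * Complex.I * (↑l / ↑N))) =
            Complex.exp (2 * Real.pi * Complex.I * (j / N : ℂ) * rep x.1) *
              Complex.exp (2 * ↑Real.pi * -Complex.I * (↑j / ↑N) *
                ((rep x.1 + (l : ℝ) : ℝ) : ℂ)) := by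
          rw [← Complex.exp_add]
          congr 1
          push_cast
          ring
        rw [this]
        ring
      have h := hasSum_sum (s := Finset.range N) fun j _ => hj j
      refine h.congr_fun fun l => ?_
      simp only [hw, ← Finset.sum_mul, hroot N hN l]
    have h2 : HasSum (fun l => if l = 0 then 0 else w l) (A N x - conj (vterm d f0 0 x)) := by
      have h3 := hAx.sub (hasSum_ite_eq (0 : ℤ) (w 0))
      have h4 : w 0 = conj (vterm d f0 0 x) := by simp [hw]
      rw [h4] at h3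
      refine h3.congr_fun fun l => ?_
      split_ifs with h
      · subst h; rw [h4, sub_self]
      · rw [sub_zero]
    rw [← h2.tsum_eq]
    refine tsum_of_norm_bounded (hsc N).hasSum fun l => ?_
    simp only [hc', hw]
    by_cases hl : l = 0
    · simp [hl]
    · by_cases hN' : (N : ℤ) ∣ l
      · simpa [hl, hN'] using vterm_norm_le hC0 hC d l x
      · simp [hl, hN']
  have hlim : Tendsto (fun N => ∑' l, c N l) atTop (𝓝 0) := by
    rw [← tsum_zero]
    refine tendsto_tsum_of_dominated_convergence (summable_wl.mul_left C) (fun l => ?_)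
      (Eventually.of_forall fun N l => ?_)
    · refine tendsto_const_nhds.congr' ?_
      filter_upwards [eventually_gt_atTop l.natAbs] with N hN
      simp only [hc']
      rw [if_neg]
      rintro ⟨hl, hdvd⟩
      have := Int.le_of_dvd (abs_pos.2 hl) ((dvd_abs _ _).2 hdvd)
      rw [← Int.natCast_natAbs] at this
      omega
    · simp only [hc']
      split_ifs <;> simp [abs_of_nonneg, mul_nonneg, hC0, wl_nonneg]
  have hv0 : mulOp (fun x => conj (vterm d f0 0 x)) g = 0 := by
    refine norm_le_zero_iff.1 (ge_of_tendsto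
      (show Tendsto (fun N => (∑' l, c N l) * ‖g‖) atTop (𝓝 0) by
        simpa using hlim.mul_const ‖g‖) ?_)
    filter_upwards [eventually_gt_atTop 0] with N hN
    have hbv : BM fun x => conj (vterm d f0 0 x) := (bm_vterm (dec_gexp 0) d 0).conj
    rw [← norm_neg, ← zero_sub, ← hA0 N, ← sub_apply, ← mulOp_sub (hAbm N) hbv]
    refine (ContinuousLinearMap.le_opNorm _ _).trans (mul_le_mul_of_nonneg_right ?_ (norm_nonneg _))
    refine mulOp_norm_le ?_ (tsum_nonneg fun l => ?_) (hdiff N hN)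
    · simpa [sub_eq_add_neg] using (hAbm N).add ((BM.const (-1)).mul hbv)
    · simp only [hc']; split_ifs <;> simp [mul_nonneg, hC0, wl_nonneg]
  have hv : ∀ x, conj (vterm d f0 0 x) = ((gs (rep x.1) : ℝ) : ℂ) := by
    intro x
    simp [vterm, hf0, gexp]
  have hinv : BM fun x : Torus => (((gs (rep x.1))⁻¹ : ℝ) : ℂ) := by
    refine ⟨Complex.continuous_ofReal.measurable.comp
      ((continuous_gs.measurable.comp (measurable_rep.comp measurable_fst)).inv),
      Real.exp Real.pi, fun x => ?_⟩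
    rw [Complex.norm_real, Real.norm_eq_abs, abs_inv, abs_of_pos (gs_pos _), gs, ← Real.exp_neg,
      neg_neg]
    refine Real.exp_le_exp.2 (mul_le_of_le_one_right Real.pi_pos.le ?_)
    nlinarith [(rep_mem x.1).1, (rep_mem x.1).2]
  have := congrArg (mulOp fun x : Torus => (((gs (rep x.1))⁻¹ : ℝ) : ℂ)) hv0
  rw [map_zero, mulOp_apply_comp hinv (bm_vterm (dec_gexp 0) d 0).conj] at this
  have e : (fun x : Torus => (((gs (rep x.1))⁻¹ : ℝ) : ℂ) * conj (vterm d f0 0 x)) =
      fun _ => (1 : ℂ) := by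
    funext x
    rw [hv, ← Complex.ofReal_mul, inv_mul_cancel₀ (gs_pos _).ne', Complex.ofReal_one]
  rwa [e, mulOp_one] at this

/-- The theta vectors form a Hilbert basis of the sections. -/
noncomputable def thBasis {d : ℤ} (hd : d = 1 ∨ d = -1) : HilbertBasis ℕ ℂ TorusL2 :=
  HilbertBasis.mkOfOrthogonalEqBot (orthonormal_thVec hd) (by
    refine (Submodule.eq_bot_iff _).2 fun g hg => thVec_complete hd fun n => ?_
    exact Submodule.inner_left_of_mem_orthogonal
      (Submodule.subset_span (Set.mem_range_self (f := fun n => thVec d (phi n)) n)) hg)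

@[simp] theorem coe_thBasis {d : ℤ} (hd : d = 1 ∨ d = -1) :
    ⇑(thBasis hd) = fun n => thVec d (phi n) :=
  HilbertBasis.coe_mkOfOrthogonalEqBot _ _

end TorIdx
end VP212
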